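import Mathlib

/-!
P133: pure infiniteness, ideal membership and approximate Cuntz subordination, and the reduction
of strong pure infiniteness to almost orthogonal full positive elements in two hereditary
subalgebras.
-/

namespace Vale.Agent.P133

open scoped ComplexOrder

variable {C : Type*} [NonUnitalCStarAlgebra C] [PartialOrder C] [StarOrderedRing C]

/-- Every positive element is properly infinite. -/
def PurelyInfinite (C : Type*) [NonUnitalCStarAlgebra C] [PartialOrder C] : Prop :=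
  ∀ h : C, 0 ≤ h → ∀ ε : ℝ, 0 < ε → ∃ a b : C,
    ‖star a * h * a - h‖ < ε ∧ ‖star b * h * b - h‖ < ε ∧ ‖star a * h * b‖ < ε

/-- Strong pure infiniteness in the form of Kirchberg and Sierakowski. -/
def StronglyPurelyInfinite (C : Type*) [NonUnitalCStarAlgebra C] [PartialOrder C] : Prop :=
  ∀ x y : C, 0 ≤ x → 0 ≤ y → ∀ ε : ℝ, 0 < ε → ∃ s t : C,
    ‖star s * (x * x) * s - x * x‖ < ε ∧ ‖star t * (y * y) * t - y * y‖ < ε ∧
      ‖star s * (x * y) * t‖ < ε

/-- The closed ideal generated by one element, for elements of the form `p a q`. -/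
noncomputable def idealGen (a : C) : Submodule ℂ C :=
  (Submodule.span ℂ {e : C | ∃ p q, e = p * a * q}).topologicalClosure

/-- Membership in the hereditary subalgebra of a positive element. -/
def InHer (x a : C) : Prop := ∀ ε : ℝ, 0 < ε → ∃ c, ‖a - x * c * x‖ < ε

/-- The cut-down of a positive element. -/
noncomputable def cut (c : ℝ) (a : C) : C := cfcₙ (fun t : ℝ => max (t - c) 0) a

theorem cut_nonneg (c : ℝ) (a : C) : 0 ≤ cut c a :=
  cfcₙ_nonneg fun _ _ => le_max_right _ _

theorem norm_sub_cut_le {c : ℝ} (hc : 0 ≤ c) {a : C} (ha : 0 ≤ a) : ‖a - cut c a‖ ≤ c := by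
  have h0 : max ((0 : ℝ) - c) 0 = 0 := max_eq_right (by linarith)
  have h := cfcₙ_sub (fun t : ℝ => t) (fun t : ℝ => max (t - c) 0) a
  rw [cfcₙ_id' ℝ a] at h
  unfold cut
  rw [← h]
  refine norm_cfcₙ_le fun t ht => ?_
  have ht0 := quasispectrum_nonneg_of_nonneg a ha t ht
  rcases le_total t c with h1 | h1
  · rw [max_eq_right (by linarith), sub_zero, Real.norm_of_nonneg ht0]
    exact h1
  · rw [max_eq_left (by linarith), Real.norm_of_nonneg (by linarith)]
    linarith

theorem norm_cut_le {c : ℝ} (hc : 0 ≤ c) {a : C} (ha : 0 ≤ a) : ‖cut c a‖ ≤ ‖a‖ := by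
  unfold cut
  refine norm_cfcₙ_le fun t ht => ?_
  have ht0 := quasispectrum_nonneg_of_nonneg a ha t ht
  have h1 : ‖t‖ ≤ ‖a‖ := by
    simpa [cfcₙ_id ℝ a] using norm_apply_le_norm_cfcₙ (id : ℝ → ℝ) a ht
  rw [Real.norm_of_nonneg (le_max_right _ _)]
  rw [Real.norm_of_nonneg ht0] at h1
  exact (max_le (by linarith) ht0).trans h1

section Cauchy

/-- Cauchy-Schwarz for two terms. -/
theorem star_add_mul_le (u v : C) :
    star (u + v) * (u + v) ≤ (2 : ℝ) • (star u * u + star v * v) := by
  rw [← sub_nonneg]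
  have : (2 : ℝ) • (star u * u + star v * v) - star (u + v) * (u + v) =
      star (u - v) * (u - v) := by
    simp only [two_smul, star_add, star_sub, add_mul, mul_add, sub_mul, mul_sub]
    abel
  rw [this]
  exact star_mul_self_nonneg _

theorem mul_self_le_norm_smul {a : C} (ha : 0 ≤ a) : a * a ≤ ‖a‖ • a := by
  have h := CStarAlgebra.star_left_conjugate_le_norm_smul (a := CFC.sqrt a) (b := a)
  have hs : star (CFC.sqrt a) = CFC.sqrt a := (IsSelfAdjoint.of_nonneg (CFC.sqrt_nonneg a)).star_eq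
  have hq := CFC.sqrt_mul_sqrt_self a
  rw [hs, hq] at h
  have hc : CFC.sqrt a * a * CFC.sqrt a = a * a := by
    calc CFC.sqrt a * a * CFC.sqrt a
        = CFC.sqrt a * (CFC.sqrt a * CFC.sqrt a) * CFC.sqrt a :=
          congrArg (fun y => CFC.sqrt a * y * CFC.sqrt a) hq.symm
      _ = (CFC.sqrt a * CFC.sqrt a) * (CFC.sqrt a * CFC.sqrt a) := by simp only [mul_assoc]
      _ = a * a := by rw [hq]
  rwa [hc] at h

end Cauchy

/-- An element of the algebraic ideal has its square below a diagonal sum. -/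
theorem exists_le_sum_of_mem_span {a : C} (ha : 0 ≤ a) {e : C}
    (he : e ∈ Submodule.span ℂ {e : C | ∃ p q, e = p * a * q}) :
    ∃ (n : ℕ) (c : ℝ) (q : Fin n → C), 0 ≤ c ∧
      star e * e ≤ c • ∑ i, star (q i) * a * q i := by
  induction he using Submodule.span_induction with
  | mem e he =>
    obtain ⟨p, q, rfl⟩ := he
    refine ⟨1, ‖star p * p‖ * ‖a‖, fun _ => q, by positivity, ?_⟩
    have has : star a = a := (IsSelfAdjoint.of_nonneg ha).star_eq
    have h1 : star (p * a * q) * (p * a * q) = star (a * q) * (star p * p) * (a * q) := by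
      simp only [star_mul, mul_assoc]
    have h2 := CStarAlgebra.star_left_conjugate_le_norm_smul (a := a * q) (b := star p * p)
      (IsSelfAdjoint.star_mul_self p)
    have h3 : star (a * q) * (a * q) = star q * (a * a) * q := by
      rw [star_mul, has]; simp only [mul_assoc]
    have h4 := star_left_conjugate_le_conjugate (mul_self_le_norm_smul ha) q
    rw [h1]
    refine h2.trans ?_
    rw [h3, Fin.sum_univ_one, mul_smul]
    refine smul_le_smul_of_nonneg_left (h4.trans (le_of_eq ?_)) (norm_nonneg _)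
    rw [mul_smul_comm, smul_mul_assoc]
  | zero => exact ⟨0, 0, Fin.elim0, le_rfl, by simp⟩
  | add u v _ _ hu hv =>
    obtain ⟨n, c, q, hc, hu⟩ := hu
    obtain ⟨m, d, r, hd, hv⟩ := hv
    refine ⟨n + m, 2 * (c + d), Fin.append q r, by positivity, (star_add_mul_le u v).trans ?_⟩
    have hq : 0 ≤ ∑ i, star (q i) * a * q i :=
      Finset.sum_nonneg fun i _ => star_left_conjugate_nonneg ha (q i)
    have hr : 0 ≤ ∑ i, star (r i) * a * r i :=
      Finset.sum_nonneg fun i _ => star_left_conjugate_nonneg ha (r i)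
    rw [mul_smul, Fin.sum_univ_add]
    simp only [Fin.append_left, Fin.append_right]
    refine smul_le_smul_of_nonneg_left ((add_le_add hu hv).trans ?_) (by norm_num)
    rw [smul_add]
    exact add_le_add (smul_le_smul_of_nonneg_right (by linarith) hq)
      (smul_le_smul_of_nonneg_right (by linarith) hr)
  | smul r u _ hu =>
    obtain ⟨n, c, q, hc, hu⟩ := hu
    refine ⟨n, ‖r‖ ^ 2 * c, q, by positivity, ?_⟩
    have h1 : star (r • u) * (r • u) = (‖r‖ ^ 2 : ℝ) • (star u * u) := by
      rw [star_smul, smul_mul_smul_comm, ← Complex.coe_smul]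
      congr 1
      rw [Complex.star_def, ← Complex.normSq_eq_conj_mul_self, Complex.normSq_eq_norm_sq]
    rw [h1, mul_smul]
    exact smul_le_smul_of_nonneg_left hu (by positivity)

/-- `f(S) S f(S)` in the functional calculus. -/
theorem cfcₙ_conj {S : C} (hS : 0 ≤ S) {f : ℝ → ℝ} (hf : Continuous f) (hf0 : f 0 = 0) :
    cfcₙ f S * S * cfcₙ f S = cfcₙ (fun t => f t * t * f t) S := by
  have h1 := cfcₙ_mul f (fun t : ℝ => t) S hf.continuousOn hf0 continuous_id.continuousOn rfl
  rw [cfcₙ_id' ℝ S] at h1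
  rw [cfcₙ_mul (fun t => f t * t) f S (hf.mul continuous_id).continuousOn (by simp [hf0])
    hf.continuousOn hf0, h1]

/-- `(1 - f(S)) S (1 - f(S))` in the functional calculus. -/
theorem cfcₙ_defect {S : C} (hS : 0 ≤ S) {f : ℝ → ℝ} (hf : Continuous f) (hf0 : f 0 = 0) :
    S - cfcₙ f S * S - S * cfcₙ f S + cfcₙ f S * S * cfcₙ f S =
      cfcₙ (fun t => t - f t * t - t * f t + f t * t * f t) S := by
  have hid : Continuous fun t : ℝ => t := continuous_id
  have h1 := cfcₙ_mul f (fun t : ℝ => t) S hf.continuousOn hf0 hid.continuousOn rfl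
  have h2 := cfcₙ_mul (fun t : ℝ => t) f S hid.continuousOn rfl hf.continuousOn hf0
  rw [cfcₙ_id' ℝ S] at h1 h2
  rw [cfcₙ_add (fun t : ℝ => t - f t * t - t * f t) (fun t => f t * t * f t) S
      ((hid.sub (hf.mul hid)).sub (hid.mul hf)).continuousOn (by simp [hf0])
      ((hf.mul hid).mul hf).continuousOn (by simp [hf0]),
    cfcₙ_sub (fun t : ℝ => t - f t * t) (fun t => t * f t) S
      (hid.sub (hf.mul hid)).continuousOn (by simp [hf0]) (hid.mul hf).continuousOn (by simp),
    cfcₙ_sub (fun t : ℝ => t) (fun t => f t * t) S hid.continuousOn rfl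
      (hf.mul hid).continuousOn (by simp),
    ← cfcₙ_conj hS hf hf0, cfcₙ_id' ℝ S, h1, h2]

/-- If `z` is below a multiple of `S`, it is approximately `w* S w`. -/
theorem exists_conj_of_le {z S : C} (hz : 0 ≤ z) (hS : 0 ≤ S) {c : ℝ} (hc : 0 ≤ c)
    (hzS : z ≤ c • S) {ε : ℝ} (hε : 0 < ε) : ∃ w, ‖star w * S * w - z‖ < ε := by
  set v := CFC.sqrt z with hv
  have hvs : star v = v := (IsSelfAdjoint.of_nonneg (CFC.sqrt_nonneg z)).star_eq
  have hvv : v * v = z := CFC.sqrt_mul_sqrt_self z
  set τ : ℝ := min 1 (ε / (4 * (‖v‖ + 1)) ) with hτ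
  have hτ0 : 0 < τ := lt_min one_pos (by positivity)
  set δ : ℝ := (τ ^ 2 / (c + 1)) ^ 2 with hδ
  have hδ0 : 0 < δ := by positivity
  have hden : ∀ t : ℝ, t ^ 2 + δ ≠ 0 := fun t => by positivity
  set φ : ℝ → ℝ := fun t => t ^ 2 / (t ^ 2 + δ) with hφ
  set ψ : ℝ → ℝ := fun t => |t| * √|t| / (t ^ 2 + δ) with hψ
  have hφc : Continuous φ := by
    refine Continuous.div (by fun_prop) (by fun_prop) hden
  have hψc : Continuous ψ := by
    refine Continuous.div (by fun_prop) (by fun_prop) hden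
  have hφ0 : φ 0 = 0 := by simp [hφ]
  have hψ0 : ψ 0 = 0 := by simp [hψ]
  set P := cfcₙ φ S with hP
  set Q := cfcₙ ψ S with hQ
  have hPs : star P = P := (cfcₙ_predicate φ S : IsSelfAdjoint P).star_eq
  have hQs : star Q = Q := (cfcₙ_predicate ψ S : IsSelfAdjoint Q).star_eq
  have hPn : ‖P‖ ≤ 1 := by
    refine norm_cfcₙ_le fun t _ => ?_
    rw [Real.norm_of_nonneg (by positivity), div_le_one (by positivity)]
    linarith
  have hQSQ : Q * S * Q = P * P := by
    rw [hQ, hP, cfcₙ_conj hS hψc hψ0,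
      ← cfcₙ_mul φ φ S hφc.continuousOn hφ0 hφc.continuousOn hφ0]
    refine cfcₙ_congr fun t ht => ?_
    have ht0 := quasispectrum_nonneg_of_nonneg S hS t ht
    have h2 : √t * √t = t := Real.mul_self_sqrt ht0
    simp only [hψ, hφ, abs_of_nonneg ht0]
    rw [div_mul_eq_mul_div, div_mul_div_comm, div_mul_div_comm]
    congr 1
    calc t * √t * t * (t * √t) = t * t * t * (√t * √t) := by ring
      _ = _ := by rw [h2]; ring
  -- the defect `X y = (1 - P) y (1 - P)`
  have hsmall : ‖(v - P * v) * star (v - P * v)‖ ≤ c * √δ := by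
    set X : C → C := fun y => y - P * y - y * P + P * y * P with hX
    have hX1 : (v - P * v) * star (v - P * v) = X z := by
      simp only [hX, star_sub, star_mul, hPs, hvs, ← hvv, sub_mul, mul_sub, mul_assoc]
      abel
    have hXle : X z ≤ X (c • S) := by
      rw [← sub_nonneg]
      set d := CFC.sqrt (c • S - z) with hd
      have hds : star d = d := (IsSelfAdjoint.of_nonneg (CFC.sqrt_nonneg _)).star_eq
      have hdd : d * d = c • S - z := CFC.sqrt_mul_sqrt_self _ (sub_nonneg.2 hzS)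
      have : X (c • S) - X z = (d - P * d) * star (d - P * d) := by
        have e : X (c • S) - X z = X (c • S - z) := by
          simp only [hX, mul_sub, sub_mul]
          abel
        rw [e, ← hdd]
        simp only [hX, star_sub, star_mul, hPs, hds, sub_mul, mul_sub, mul_assoc]
        abel
      rw [this]
      exact mul_star_self_nonneg _
    have hXS : X (c • S) = c • cfcₙ (fun t : ℝ => t - φ t * t - t * φ t + φ t * t * φ t) S := by
      rw [← cfcₙ_defect hS hφc hφ0]
      simp only [hX, smul_sub, smul_add, mul_smul_comm, smul_mul_assoc, hP]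
    rw [hX1]
    refine (CStarAlgebra.norm_le_norm_of_nonneg_of_le (hX1 ▸ mul_star_self_nonneg _) hXle).trans ?_
    rw [hXS, norm_smul, Real.norm_of_nonneg hc]
    refine mul_le_mul_of_nonneg_left (norm_cfcₙ_le fun t ht => ?_) hc
    have ht0 := quasispectrum_nonneg_of_nonneg S hS t ht
    have hs := Real.sqrt_nonneg δ
    have hsq := Real.sq_sqrt hδ0.le
    have e : t - φ t * t - t * φ t + φ t * t * φ t = (δ / (t ^ 2 + δ)) * (δ * t / (t ^ 2 + δ)) := by
      simp only [hφ]
      field_simp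
      ring
    have h1 : δ * t / (t ^ 2 + δ) ≤ √δ := by
      rw [div_le_iff₀ (by positivity)]
      nlinarith [sq_nonneg (t - √δ), mul_nonneg hs ht0]
    have h2 : δ / (t ^ 2 + δ) ≤ 1 := by rw [div_le_one (by positivity)]; nlinarith
    rw [e, Real.norm_of_nonneg (by positivity)]
    exact (mul_le_of_le_one_left (by positivity) h2).trans h1
  have hclose : ‖v - P * v‖ ≤ τ := by
    rw [CStarRing.norm_self_mul_star] at hsmall
    have : c * √δ ≤ τ ^ 2 := by
      rw [hδ, Real.sqrt_sq (by positivity), mul_div_assoc', div_le_iff₀ (by positivity)]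
      nlinarith [sq_nonneg τ]
    nlinarith [norm_nonneg (v - P * v)]
  refine ⟨Q * v, ?_⟩
  have e : star (Q * v) * S * (Q * v) - z =
      star (P * v - v) * (P * v) + v * (P * v - v) := by
    have : star (Q * v) * S * (Q * v) = v * (P * P) * v := by
      rw [star_mul, hvs, hQs, ← hQSQ]; simp only [mul_assoc]
    rw [this, ← hvv]
    simp only [star_sub, star_mul, hvs, hPs, sub_mul, mul_sub, mul_assoc]
    abel
  rw [e]
  have hPv : ‖P * v‖ ≤ ‖v‖ := (norm_mul_le _ _).trans (mul_le_of_le_one_left (norm_nonneg _) hPn)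
  calc ‖star (P * v - v) * (P * v) + v * (P * v - v)‖
      ≤ τ * ‖v‖ + ‖v‖ * τ := by
        refine (norm_add_le _ _).trans (add_le_add ((norm_mul_le _ _).trans ?_)
          ((norm_mul_le _ _).trans ?_))
        · rw [norm_star, norm_sub_rev]
          exact mul_le_mul hclose hPv (norm_nonneg _) hτ0.le
        · rw [norm_sub_rev]
          exact mul_le_mul_of_nonneg_left hclose (norm_nonneg _)
    _ < ε := by
        have h : τ ≤ ε / (4 * (‖v‖ + 1)) := min_le_right _ _
        rw [le_div_iff₀ (by positivity)] at h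
        nlinarith [norm_nonneg v]

/-- A positive element of the closed ideal has its square root there too. -/
theorem sqrt_mem_idealGen {a z : C} (hz : 0 ≤ z) (h : z ∈ idealGen a) :
    CFC.sqrt z ∈ idealGen a := by
  have hmul : ∀ u : C, ∀ e ∈ idealGen a, e * u ∈ idealGen a := fun u e he => by
    refine map_mem_closure (f := fun y => y * u) (continuous_mul_const u) he fun y hy => ?_
    induction hy using Submodule.span_induction with
    | mem y hy =>
      obtain ⟨p, q, rfl⟩ := hy
      exact Submodule.subset_span ⟨p, q * u, by simp only [mul_assoc]⟩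
    | zero => simp
    | add y₁ y₂ _ _ h₁ h₂ => simpa [add_mul] using add_mem h₁ h₂
    | smul r y _ hy => simpa [smul_mul_assoc] using Submodule.smul_mem _ r hy
  have hcl : IsClosed (idealGen a : Set C) := Submodule.isClosed_topologicalClosure _
  rw [← SetLike.mem_coe, ← hcl.closure_eq, Metric.mem_closure_iff]
  intro ε hε
  set τ := ε / 2 with hτ
  have hτ0 : 0 < τ := by positivity
  have hden : ∀ t : ℝ, t ^ 2 + τ ^ 4 ≠ 0 := fun t => by positivity
  set g : ℝ → ℝ := fun t => √|t| * t / (t ^ 2 + τ ^ 4) with hg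
  have hgc : Continuous g := Continuous.div (by fun_prop) (by fun_prop) hden
  have hg0 : g 0 = 0 := by simp [hg]
  refine ⟨z * cfcₙ g z, hmul _ z h, ?_⟩
  rw [dist_eq_norm, CFC.sqrt_eq_real_sqrt z]
  nth_rw 2 [← cfcₙ_id' ℝ z]
  rw [← cfcₙ_mul _ _ z, ← cfcₙ_sub _ _ z]
  refine (norm_cfcₙ_le fun t ht => ?_).trans_lt (half_lt_self hε)
  have ht0 := quasispectrum_nonneg_of_nonneg z hz t ht
  have e : √t - t * g t = √t * τ ^ 4 / (t ^ 2 + τ ^ 4) := by
    simp only [hg, abs_of_nonneg ht0]
    field_simp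
    ring
  rw [e, Real.norm_of_nonneg (by positivity), div_le_iff₀ (by positivity)]
  have hs := Real.sqrt_nonneg t
  have hsq := Real.sq_sqrt ht0
  rcases le_total (√t) τ with h1 | h1
  · calc √t * τ ^ 4 ≤ τ * τ ^ 4 := mul_le_mul_of_nonneg_right h1 (pow_nonneg hτ0.le 4)
      _ ≤ τ * (t ^ 2 + τ ^ 4) :=
          mul_le_mul_of_nonneg_left (by nlinarith [sq_nonneg t]) hτ0.le
  · have h2 : τ ^ 3 * √t ≤ √t ^ 4 := by
      have := pow_le_pow_left₀ hτ0.le h1 3
      nlinarith [mul_le_mul_of_nonneg_right this hs]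
    have : √t ^ 4 = t ^ 2 := by rw [show √t ^ 4 = (√t ^ 2) ^ 2 by ring, hsq]
    nlinarith [mul_le_mul_of_nonneg_left h2 hτ0.le, pow_pos hτ0 4]

/-- Finitely many almost orthogonal copies of a positive element below itself. -/
theorem PurelyInfinite.copies (hC : PurelyInfinite C) {h : C} (hh : 0 ≤ h) (n : ℕ) :
    ∀ {ε : ℝ}, 0 < ε → ∃ a : Fin n → C,
      ∀ i j, ‖star (a i) * h * a j - if i = j then h else 0‖ < ε := by
  induction n with
  | zero => exact fun _ => ⟨Fin.elim0, fun i => i.elim0⟩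
  | succ n ih =>
    intro ε hε
    obtain ⟨a, ha⟩ := ih (half_pos hε)
    set K := 1 + ∑ i, ‖a i‖ with hK
    have hsum : 0 ≤ ∑ i, ‖a i‖ := Finset.sum_nonneg fun i _ => norm_nonneg _
    have hKi : ∀ i, ‖a i‖ ≤ K := fun i =>
      (Finset.single_le_sum (f := fun i => ‖a i‖) (fun i _ => norm_nonneg _)
        (Finset.mem_univ i)).trans (by rw [hK]; linarith)
    have hK1 : 1 ≤ K := by rw [hK]; linarith
    set η := ε / (2 * K ^ 2) with hη
    obtain ⟨p, q, hp, hq, hpq⟩ := hC h hh η (by positivity)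
    have hqp : ‖star q * h * p‖ < η := by
      have : star (star p * h * q) = star q * h * p := by
        simp only [star_mul, star_star, (IsSelfAdjoint.of_nonneg hh).star_eq, mul_assoc]
      rw [← this, norm_star]; exact hpq
    have hηε : η ≤ ε / 2 := by
      rw [hη, div_le_div_iff₀ (by positivity) two_pos]
      have := one_le_pow₀ (n := 2) hK1
      nlinarith
    have hKη : K * K * η = ε / 2 := by rw [hη]; field_simp
    refine ⟨Fin.lastCases q fun i => p * a i, fun i j => ?_⟩
    refine Fin.lastCases ?_ (fun i => ?_) i <;> refine Fin.lastCases ?_ (fun j => ?_) j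
    · simp only [Fin.lastCases_last, if_true]
      linarith
    · simp only [Fin.lastCases_last, Fin.lastCases_castSucc,
        if_neg (Fin.castSucc_lt_last j).ne', sub_zero]
      rw [show star q * h * (p * a j) = (star q * h * p) * a j by simp only [mul_assoc]]
      calc ‖star q * h * p * a j‖ ≤ η * K := (norm_mul_le _ _).trans
            (mul_le_mul hqp.le (hKi j) (norm_nonneg _) (by positivity))
        _ ≤ K * K * η := by nlinarith [show 0 < η by positivity]
        _ < ε := by linarith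
    · simp only [Fin.lastCases_last, Fin.lastCases_castSucc,
        if_neg (Fin.castSucc_lt_last i).ne, sub_zero]
      rw [show star (p * a i) * h * q = star (a i) * (star p * h * q) by
        simp only [star_mul, mul_assoc]]
      calc ‖star (a i) * (star p * h * q)‖ ≤ K * η := (norm_mul_le _ _).trans
            (mul_le_mul (by rw [norm_star]; exact hKi i) hpq.le (norm_nonneg _) (by positivity))
        _ ≤ K * K * η := by nlinarith [show 0 < η by positivity]
        _ < ε := by linarith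
    · simp only [Fin.lastCases_castSucc, Fin.castSucc_inj]
      rw [show star (p * a i) * h * (p * a j) - (if i = j then h else 0) =
          star (a i) * (star p * h * p - h) * a j +
            (star (a i) * h * a j - if i = j then h else 0) by
        simp only [star_mul, mul_sub, sub_mul, mul_assoc]; abel]
      calc _ ≤ ‖star (a i) * (star p * h * p - h) * a j‖ +
            ‖star (a i) * h * a j - if i = j then h else 0‖ := norm_add_le _ _
        _ < K * K * η + ε / 2 := by
            refine add_lt_add_of_le_of_lt ((norm_mul₃_le).trans ?_) (ha i j)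
            rw [norm_star]
            calc ‖a i‖ * ‖star p * h * p - h‖ * ‖a j‖ ≤ K * η * K :=
                  mul_le_mul (mul_le_mul (hKi i) hp.le (norm_nonneg _) (by linarith)) (hKi j)
                    (norm_nonneg _) (by positivity)
              _ = K * K * η := by ring
        _ = ε := by rw [hKη]; ring

/-- In a purely infinite algebra a positive element of the closed ideal of `a` is below `a`. -/
theorem PurelyInfinite.exists_conj_of_mem (hC : PurelyInfinite C) {a z : C} (ha : 0 ≤ a)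
    (hz : 0 ≤ z) (h : z ∈ idealGen a) {ε : ℝ} (hε : 0 < ε) :
    ∃ r, ‖star r * a * r - z‖ < ε := by
  set v := CFC.sqrt z with hv
  have hvs : star v = v := (IsSelfAdjoint.of_nonneg (CFC.sqrt_nonneg z)).star_eq
  have hvmem := sqrt_mem_idealGen hz h
  set τ := min 1 (ε / (4 * (2 * ‖v‖ + 1))) with hτ
  have hτ0 : 0 < τ := lt_min one_pos (by positivity)
  obtain ⟨e, he, hev⟩ := Metric.mem_closure_iff.1 hvmem τ hτ0
  rw [dist_eq_norm] at hev
  obtain ⟨n, c, q, hc, hle⟩ := exists_le_sum_of_mem_span ha he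
  set S := ∑ i, star (q i) * a * q i with hS
  have hS0 : 0 ≤ S := Finset.sum_nonneg fun i _ => star_left_conjugate_nonneg ha (q i)
  obtain ⟨w, hw⟩ := exists_conj_of_le (star_mul_self_nonneg e) hS0 hc hle (show 0 < ε / 4 by linarith)
  set K := ∑ i, ∑ j, ‖q i‖ * ‖q j‖ with hK
  have hK0 : 0 ≤ K := Finset.sum_nonneg fun i _ => Finset.sum_nonneg fun j _ => by positivity
  obtain ⟨p, hp⟩ := hC.copies ha n (show 0 < ε / (4 * (K + 1) * (‖w‖ ^ 2 + 1)) by positivity)
  refine ⟨(∑ i, p i * q i) * w, ?_⟩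
  have hSr : star (∑ i, p i * q i) * a * (∑ j, p j * q j) - S =
      ∑ i, ∑ j, star (q i) * (star (p i) * a * p j - if i = j then a else 0) * q j := by
    rw [hS, star_sum, Finset.sum_mul, Finset.sum_mul, ← Finset.sum_sub_distrib]
    refine Finset.sum_congr rfl fun i _ => ?_
    simp only [Finset.mul_sum, mul_sub, sub_mul, Finset.sum_sub_distrib]
    congr 1
    · refine Finset.sum_congr rfl fun j _ => ?_
      simp only [star_mul, mul_assoc]
    · simp [mul_ite, ite_mul]
  have hSn : ‖star (∑ i, p i * q i) * a * (∑ j, p j * q j) - S‖ ≤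
      K * (ε / (4 * (K + 1) * (‖w‖ ^ 2 + 1))) := by
    rw [hSr, hK, Finset.sum_mul]
    refine (norm_sum_le _ _).trans (Finset.sum_le_sum fun i _ => ?_)
    rw [Finset.sum_mul]
    refine (norm_sum_le _ _).trans (Finset.sum_le_sum fun j _ => (norm_mul₃_le).trans ?_)
    rw [norm_star]
    calc ‖q i‖ * ‖star (p i) * a * p j - if i = j then a else 0‖ * ‖q j‖
        = ‖q i‖ * ‖q j‖ * ‖star (p i) * a * p j - if i = j then a else 0‖ := by ring
      _ ≤ _ := mul_le_mul_of_nonneg_left (hp i j).le (by positivity)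
  have hez : ‖star e * e - z‖ ≤ ε / 4 := by
    rw [show z = star v * v by rw [hvs, hv, CFC.sqrt_mul_sqrt_self z]]
    rw [show star e * e - star v * v = star (e - v) * e + star v * (e - v) by
      simp only [star_sub, sub_mul, mul_sub]; abel]
    have hn : ‖e‖ ≤ ‖v‖ + 1 := by
      have := norm_sub_norm_le e v
      rw [norm_sub_rev] at hev
      linarith [min_le_left 1 (ε / (4 * (2 * ‖v‖ + 1)))]
    calc _ ≤ τ * (‖v‖ + 1) + ‖v‖ * τ := by
          refine (norm_add_le _ _).trans (add_le_add ((norm_mul_le _ _).trans ?_)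
            ((norm_mul_le _ _).trans ?_))
          · rw [norm_star, norm_sub_rev]
            exact mul_le_mul hev.le hn (norm_nonneg _) hτ0.le
          · rw [norm_star, norm_sub_rev]
            exact mul_le_mul_of_nonneg_left hev.le (norm_nonneg _)
      _ = τ * (2 * ‖v‖ + 1) := by ring
      _ ≤ ε / (4 * (2 * ‖v‖ + 1)) * (2 * ‖v‖ + 1) :=
          mul_le_mul_of_nonneg_right (min_le_right _ _) (by positivity)
      _ = ε / 4 := by field_simp
  have hdec : star ((∑ i, p i * q i) * w) * a * ((∑ i, p i * q i) * w) - z =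
      star w * (star (∑ i, p i * q i) * a * (∑ j, p j * q j) - S) * w +
        (star w * S * w - star e * e) + (star e * e - z) := by
    simp only [star_mul, mul_sub, sub_mul, mul_assoc]
    abel
  rw [hdec]
  have hb : ‖w‖ ^ 2 * (K * (ε / (4 * (K + 1) * (‖w‖ ^ 2 + 1)))) ≤ ε / 4 := by
    rw [show ‖w‖ ^ 2 * (K * (ε / (4 * (K + 1) * (‖w‖ ^ 2 + 1)))) =
      ε / 4 * ((K / (K + 1)) * (‖w‖ ^ 2 / (‖w‖ ^ 2 + 1))) by field_simp]
    refine mul_le_of_le_one_right (by linarith) (mul_le_one₀ ?_ (by positivity) ?_) <;>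
      rw [div_le_one (by positivity)] <;> linarith
  calc _ ≤ ‖star w * (star (∑ i, p i * q i) * a * (∑ j, p j * q j) - S) * w‖ +
        ‖star w * S * w - star e * e‖ + ‖star e * e - z‖ := norm_add₃_le
    _ < ε := by
        have h1 := (norm_mul₃_le (a := star w)
          (b := star (∑ i, p i * q i) * a * (∑ j, p j * q j) - S) (c := w))
        rw [norm_star] at h1
        have := mul_le_mul_of_nonneg_left hSn (sq_nonneg ‖w‖)
        nlinarith

/-- Subordination to a cut-down gives subordination with a bounded element. -/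
theorem exists_bounded_conj (hC : PurelyInfinite C) {a z : C} (ha : 0 ≤ a) (hz : 0 ≤ z) {c : ℝ}
    (hc : 0 < c) (h : z ∈ idealGen (cut c a)) {ε : ℝ} (hε : 0 < ε) :
    ∃ r, ‖star r * a * r - z‖ < ε ∧ ‖r‖ ^ 2 ≤ (‖z‖ + ε) / c := by
  obtain ⟨r, hr⟩ := hC.exists_conj_of_mem (cut_nonneg c a) hz h hε
  set g : ℝ → ℝ := fun t => √(max (t - c) 0 / max t c) with hg
  have hmax : ∀ t : ℝ, max t c ≠ 0 := fun t => (lt_max_of_lt_right hc).ne'
  have hgc : Continuous g := by
    exact Real.continuous_sqrt.comp (Continuous.div (by fun_prop) (by fun_prop) hmax)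
  have hg0 : g 0 = 0 := by simp [hg, max_eq_right (neg_nonpos.2 hc.le)]
  have hcut0 : max ((0 : ℝ) - c) 0 = 0 := max_eq_right (by linarith)
  set G := cfcₙ g a with hG
  have hGs : star G = G := (cfcₙ_predicate g a : IsSelfAdjoint G).star_eq
  have hGaG : G * a * G = cut c a := by
    rw [hG, cut]
    rw [cfcₙ_conj ha hgc hg0]
    refine cfcₙ_congr fun t ht => ?_
    have ht0 := quasispectrum_nonneg_of_nonneg a ha t ht
    simp only [hg]
    rw [mul_comm (√_) t, mul_assoc, Real.mul_self_sqrt (by positivity)]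
    rcases le_total t c with h1 | h1
    · rw [max_eq_right (show t - c ≤ 0 by linarith)]; simp
    · rw [max_eq_left h1]
      exact mul_div_cancel₀ _ (show t ≠ 0 by linarith)
  have hG2 : G * G ≤ (1 / c) • cut c a := by
    have hcc : Continuous fun t : ℝ => max (t - c) 0 := by fun_prop
    rw [hG, cut, ← cfcₙ_mul g g a hgc.continuousOn hg0 hgc.continuousOn hg0,
      ← cfcₙ_smul (1 / c) (fun t : ℝ => max (t - c) 0) a hcc.continuousOn hcut0]
    refine cfcₙ_mono (fun t _ => ?_) (hgc.mul hgc).continuousOn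
      (hcc.const_smul (1 / c)).continuousOn (by simp [hg0]) (by simp [hc.le])
    simp only [hg, smul_eq_mul]
    rw [Real.mul_self_sqrt (by positivity), div_mul_eq_mul_div, one_mul]
    exact div_le_div_of_nonneg_left (le_max_right _ _) hc (le_max_right _ _)
  refine ⟨G * r, ?_, ?_⟩
  · rw [star_mul, hGs, show star r * G * a * (G * r) = star r * (G * a * G) * r by
      simp only [mul_assoc], hGaG]
    exact hr
  · rw [sq, ← CStarRing.norm_star_mul_self, star_mul, hGs,
      show star r * G * (G * r) = star r * (G * G) * r by simp only [mul_assoc]]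
    refine (CStarAlgebra.norm_le_norm_of_nonneg_of_le
      (star_left_conjugate_nonneg ((IsSelfAdjoint.of_nonneg (cfcₙ_nonneg
        fun t _ => Real.sqrt_nonneg _)).mul_self_nonneg) r)
      (star_left_conjugate_le_conjugate hG2 r)).trans ?_
    rw [mul_smul_comm, smul_mul_assoc, norm_smul, Real.norm_of_nonneg (by positivity),
      div_mul_eq_mul_div, one_mul]
    refine div_le_div_of_nonneg_right ?_ hc.le
    have := norm_sub_norm_le (star r * cut c a * r) z
    linarith

/-- An element of the hereditary subalgebra of `x` is absorbed by `x g(x)`. -/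
theorem exists_absorb {x a : C} (hx : 0 ≤ x) (ha : 0 ≤ a) (h : InHer x a) {τ : ℝ} (hτ : 0 < τ) :
    ∃ g : C, ‖x * g * CFC.sqrt a - CFC.sqrt a‖ ≤ τ := by
  obtain ⟨c, hc⟩ := h (τ ^ 2 / 8) (by positivity)
  set δ := (τ ^ 2 / (2 * (‖c‖ + 1))) with hδ
  have hδ0 : 0 < δ := by positivity
  have hden : ∀ t : ℝ, t ^ 2 + δ ≠ 0 := fun t => by positivity
  set gf : ℝ → ℝ := fun t => t / (t ^ 2 + δ) with hgf
  have hgc : Continuous gf := Continuous.div (by fun_prop) (by fun_prop) hden
  have hg0 : gf 0 = 0 := by simp [hgf]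
  refine ⟨cfcₙ gf x, ?_⟩
  set P := x * cfcₙ gf x with hP
  have hP' : P = cfcₙ (fun t : ℝ => t * gf t) x := by
    rw [cfcₙ_mul (fun t : ℝ => t) gf x, cfcₙ_id' ℝ x, hP]
  have hPs : star P = P := by rw [hP']; exact (cfcₙ_predicate _ x : IsSelfAdjoint _).star_eq
  have hPn : ‖P‖ ≤ 1 := by
    rw [hP']
    refine norm_cfcₙ_le fun t _ => ?_
    simp only [hgf]
    rw [mul_div_assoc', Real.norm_eq_abs, abs_div, abs_mul_self, abs_of_pos (by positivity),
      div_le_one (by positivity)]
    nlinarith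
  have hid : Continuous fun t : ℝ => t := continuous_id
  have hxP : ‖x - x * P‖ ≤ √δ ∧ ‖x - P * x‖ ≤ √δ := by
    have e : cfcₙ (fun t : ℝ => t - t * (t * gf t)) x = x - x * P := by
      rw [cfcₙ_sub (fun t : ℝ => t) (fun t => t * (t * gf t)) x hid.continuousOn rfl
          (hid.mul (hid.mul hgc)).continuousOn (by simp),
        cfcₙ_mul (fun t : ℝ => t) (fun t => t * gf t) x hid.continuousOn rfl
          (hid.mul hgc).continuousOn (by simp), cfcₙ_id' ℝ x, hP']
    have h1 : ‖x - x * P‖ ≤ √δ := by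
      rw [← e]
      refine norm_cfcₙ_le fun t ht => ?_
      have ht0 := quasispectrum_nonneg_of_nonneg x hx t ht
      have hs := Real.sqrt_nonneg δ
      have hsq := Real.sq_sqrt hδ0.le
      have e1 : t - t * (t * gf t) = δ * t / (t ^ 2 + δ) := by
        simp only [hgf]
        field_simp
        ring
      rw [e1, Real.norm_of_nonneg (by positivity), div_le_iff₀ (by positivity)]
      nlinarith [sq_nonneg (t - √δ), mul_nonneg hs ht0]
    have hxs := (IsSelfAdjoint.of_nonneg hx).star_eq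
    refine ⟨h1, ?_⟩
    rw [← norm_star, star_sub, star_mul, hxs, hPs]
    exact h1
  set v := CFC.sqrt a with hv
  have hvs : star v = v := (IsSelfAdjoint.of_nonneg (CFC.sqrt_nonneg a)).star_eq
  set d := a - x * c * x with hd
  have e : (v - P * v) * star (v - P * v) =
      (x - P * x) * c * (x - x * P) + (d - P * d - d * P + P * d * P) := by
    have hvv : v * v = a := CFC.sqrt_mul_sqrt_self a
    have : (v - P * v) * star (v - P * v) = a - P * a - a * P + P * a * P := by
      simp only [star_sub, star_mul, hPs, hvs, ← hvv, sub_mul, mul_sub, mul_assoc]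
      abel
    rw [this, hd]
    simp only [sub_mul, mul_sub, mul_assoc]
    abel
  have hsmall : ‖v - P * v‖ * ‖v - P * v‖ ≤ τ ^ 2 := by
    rw [← CStarRing.norm_self_mul_star, e]
    have h1 : ‖(x - P * x) * c * (x - x * P)‖ ≤ δ * ‖c‖ := by
      refine (norm_mul₃_le).trans ?_
      calc ‖x - P * x‖ * ‖c‖ * ‖x - x * P‖ ≤ √δ * ‖c‖ * √δ :=
            mul_le_mul (mul_le_mul_of_nonneg_right hxP.2 (norm_nonneg _)) hxP.1 (norm_nonneg _)
              (by positivity)
        _ = δ * ‖c‖ := by rw [mul_right_comm, Real.mul_self_sqrt hδ0.le]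
    have h2 : ‖d - P * d - d * P + P * d * P‖ ≤ 4 * ‖d‖ := by
      have hl : ∀ y : C, ‖P * y‖ ≤ ‖y‖ := fun y =>
        (norm_mul_le _ _).trans (mul_le_of_le_one_left (norm_nonneg _) hPn)
      have hr : ∀ y : C, ‖y * P‖ ≤ ‖y‖ := fun y =>
        (norm_mul_le _ _).trans (mul_le_of_le_one_right (norm_nonneg _) hPn)
      linarith [norm_add_le (d - P * d - d * P) (P * d * P), norm_sub_le (d - P * d) (d * P),
        norm_sub_le d (P * d), hl d, hr d, (hr (P * d)).trans (hl d)]
    have h3 : δ * ‖c‖ ≤ τ ^ 2 / 2 := by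
      rw [hδ, div_mul_eq_mul_div, div_le_iff₀ (by positivity)]
      nlinarith [norm_nonneg c]
    linarith [norm_add_le ((x - P * x) * c * (x - x * P)) (d - P * d - d * P + P * d * P)]
  rw [norm_sub_rev]
  nlinarith [norm_nonneg (v - P * v)]

/-- The square roots of two almost orthogonal contractions are almost orthogonal. -/
theorem norm_sqrt_mul_sqrt_le {a b : C} (ha : 0 ≤ a) (hb : 0 ≤ b) (ha1 : ‖a‖ ≤ 1)
    (hb1 : ‖b‖ ≤ 1) : ‖CFC.sqrt a * CFC.sqrt b‖ ^ 4 ≤ ‖a * b‖ := by
  set u := CFC.sqrt a with hu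
  set v := CFC.sqrt b with hv
  have hus : star u = u := (IsSelfAdjoint.of_nonneg (CFC.sqrt_nonneg a)).star_eq
  have hvs : star v = v := (IsSelfAdjoint.of_nonneg (CFC.sqrt_nonneg b)).star_eq
  have huu : u * u = a := CFC.sqrt_mul_sqrt_self a
  have hvv : v * v = b := CFC.sqrt_mul_sqrt_self b
  have hv1 : ‖v‖ ≤ 1 := by
    have : ‖v‖ * ‖v‖ ≤ 1 := by
      rw [← CStarRing.norm_star_mul_self, hvs, hvv]; exact hb1
    nlinarith [norm_nonneg v]
  have h1 : ‖u * v‖ * ‖u * v‖ = ‖v * a * v‖ := by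
    rw [← CStarRing.norm_star_mul_self, star_mul, hus, hvs, ← huu]; simp only [mul_assoc]
  have h2 : ‖v * a * v‖ * ‖v * a * v‖ = ‖v * (a * b) * (a * v)‖ := by
    rw [← CStarRing.norm_star_mul_self, star_mul, star_mul, hvs,
      (IsSelfAdjoint.of_nonneg ha).star_eq, ← hvv]
    simp only [mul_assoc]
  calc ‖u * v‖ ^ 4 = ‖v * (a * b) * (a * v)‖ := by rw [← h2, ← h1]; ring
    _ ≤ 1 * ‖a * b‖ * 1 := by
        refine (norm_mul₃_le).trans (mul_le_mul (mul_le_mul_of_nonneg_right hv1 (norm_nonneg _))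
          ((norm_mul_le _ _).trans (mul_le_one₀ ha1 (norm_nonneg _) hv1)) (norm_nonneg _)
          (by positivity))
    _ = _ := by ring

/-- Almost orthogonal full elements in the hereditary subalgebras of one pair give the three
inequalities for that pair. -/
theorem exists_pair_of_full (hC : PurelyInfinite C) {x y : C} (hx : 0 ≤ x) (hy : 0 ≤ y)
    (H : ∀ ε : ℝ, 0 < ε → ∃ c : ℝ, 0 < c ∧ ∀ η : ℝ, 0 < η →
      ∃ a b : C, 0 ≤ a ∧ 0 ≤ b ∧ ‖a‖ ≤ 1 ∧ ‖b‖ ≤ 1 ∧ InHer x a ∧ InHer y b ∧ ‖a * b‖ ≤ η ∧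
        cut ε (x * x) ∈ idealGen (cut c a) ∧ cut ε (y * y) ∈ idealGen (cut c b))
    {ε : ℝ} (hε : 0 < ε) : ∃ s t : C,
    ‖star s * (x * x) * s - x * x‖ < ε ∧ ‖star t * (y * y) * t - y * y‖ < ε ∧
      ‖star s * (x * y) * t‖ < ε := by
  set ε₀ := ε / 4 with hε₀
  have hε0 : 0 < ε₀ := by positivity
  obtain ⟨c, hc, hH⟩ := H ε₀ hε0
  have hxx : 0 ≤ x * x := (IsSelfAdjoint.of_nonneg hx).mul_self_nonneg
  have hyy : 0 ≤ y * y := (IsSelfAdjoint.of_nonneg hy).mul_self_nonneg
  set R := (‖x * x‖ + ‖y * y‖ + ε₀) / c + 1 with hR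
  have hR1 : 1 ≤ R := by rw [hR]; have : 0 ≤ (‖x * x‖ + ‖y * y‖ + ε₀) / c := by positivity
                         linarith
  set τ := min 1 (ε₀ / (8 * R ^ 2)) with hτ
  have hτ0 : 0 < τ := lt_min one_pos (by positivity)
  obtain ⟨a, b, ha, hb, ha1, hb1, hax, hby, hab, hxa, hyb⟩ :=
    hH ((ε₀ / (4 * R ^ 2)) ^ 4) (by positivity)
  obtain ⟨r, hr, hrn⟩ := exists_bounded_conj hC ha (cut_nonneg _ _) hc hxa hε0
  obtain ⟨r', hr', hrn'⟩ := exists_bounded_conj hC hb (cut_nonneg _ _) hc hyb hε0
  have hbound : ∀ {u : C} {m : ℝ}, ‖u‖ ^ 2 ≤ (m + ε₀) / c → m ≤ ‖x * x‖ + ‖y * y‖ → ‖u‖ ≤ R := by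
    intro u m h1 h2
    have h3 : (m + ε₀) / c ≤ R - 1 := by
      rw [hR, add_sub_cancel_right]; exact div_le_div_of_nonneg_right (by linarith) hc.le
    nlinarith [norm_nonneg u, sq_nonneg (‖u‖ - 1)]
  have hrR : ‖r‖ ≤ R := hbound hrn
    ((norm_cut_le hε0.le hxx).trans (le_add_of_nonneg_right (norm_nonneg _)))
  have hrR' : ‖r'‖ ≤ R := hbound hrn'
    ((norm_cut_le hε0.le hyy).trans (le_add_of_nonneg_left (norm_nonneg _)))
  obtain ⟨g, hg⟩ := exists_absorb hx ha hax hτ0
  obtain ⟨g', hg'⟩ := exists_absorb hy hb hby hτ0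
  set u := CFC.sqrt a with hu
  set v := CFC.sqrt b with hv
  have hus : star u = u := (IsSelfAdjoint.of_nonneg (CFC.sqrt_nonneg a)).star_eq
  have hvs : star v = v := (IsSelfAdjoint.of_nonneg (CFC.sqrt_nonneg b)).star_eq
  have hn1 : ∀ {p q : C}, star p = p → p * p = q → ‖q‖ ≤ 1 → ‖p‖ ≤ 1 := by
    intro p q hp hpq hq
    have : ‖p‖ * ‖p‖ ≤ 1 := by rw [← CStarRing.norm_star_mul_self, hp, hpq]; exact hq
    nlinarith [norm_nonneg p]
  have hu1 : ‖u‖ ≤ 1 := hn1 hus (CFC.sqrt_mul_sqrt_self a) ha1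
  have hv1 : ‖v‖ ≤ 1 := hn1 hvs (CFC.sqrt_mul_sqrt_self b) hb1
  have main : ∀ {x g u a r : C}, star x = x → star u = u → u * u = a → ‖u‖ ≤ 1 →
      ‖x * g * u - u‖ ≤ τ → ‖r‖ ≤ R →
      ‖star (g * u * r) * (x * x) * (g * u * r) - star r * a * r‖ ≤ ε₀ := by
    intro x g u a r hxs hus huu hu1 hg hr
    set p := x * g * u with hp
    rw [show star (g * u * r) * (x * x) * (g * u * r) - star r * a * r =
      star r * (star (p - u) * p + star u * (p - u)) * r by
        rw [← huu, hp]
        simp only [star_sub, star_mul, hxs, hus, mul_sub, sub_mul, mul_add, add_mul, mul_assoc]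
        abel]
    have hpn : ‖p‖ ≤ 2 := by
      linarith [norm_le_norm_add_norm_sub' p u, min_le_left 1 (ε₀ / (8 * R ^ 2))]
    have h1 : ‖star (p - u) * p + star u * (p - u)‖ ≤ τ * 2 + 1 * τ := by
      refine (norm_add_le _ _).trans (add_le_add ((norm_mul_le _ _).trans ?_)
        ((norm_mul_le _ _).trans ?_))
      · rw [norm_star]; exact mul_le_mul hg hpn (norm_nonneg _) hτ0.le
      · rw [norm_star]; exact mul_le_mul hu1 hg (norm_nonneg _) one_pos.le
    refine (norm_mul₃_le).trans ?_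
    rw [norm_star]
    calc ‖r‖ * ‖star (p - u) * p + star u * (p - u)‖ * ‖r‖ ≤ R * (τ * 2 + 1 * τ) * R :=
          mul_le_mul (mul_le_mul hr h1 (norm_nonneg _) (by linarith)) hr (norm_nonneg _)
            (by positivity)
      _ ≤ ε₀ := by
          have h := min_le_right 1 (ε₀ / (8 * R ^ 2))
          rw [← hτ, le_div_iff₀ (by positivity)] at h
          nlinarith
  have hxs := (IsSelfAdjoint.of_nonneg hx).star_eq
  have hys := (IsSelfAdjoint.of_nonneg hy).star_eq
  refine ⟨g * u * r, g' * v * r', ?_, ?_, ?_⟩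
  · have h1 := main hxs hus (CFC.sqrt_mul_sqrt_self a) hu1 hg hrR
    have h2 := norm_sub_cut_le hε0.le hxx
    rw [norm_sub_rev] at h2
    linarith [norm_sub_le_norm_sub_add_norm_sub (star (g * u * r) * (x * x) * (g * u * r))
      (star r * a * r) (cut ε₀ (x * x)), norm_sub_le_norm_sub_add_norm_sub
      (star (g * u * r) * (x * x) * (g * u * r)) (cut ε₀ (x * x)) (x * x)]
  · have h1 := main hys hvs (CFC.sqrt_mul_sqrt_self b) hv1 hg' hrR'
    have h2 := norm_sub_cut_le hε0.le hyy
    rw [norm_sub_rev] at h2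
    linarith [norm_sub_le_norm_sub_add_norm_sub (star (g' * v * r') * (y * y) * (g' * v * r'))
      (star r' * b * r') (cut ε₀ (y * y)), norm_sub_le_norm_sub_add_norm_sub
      (star (g' * v * r') * (y * y) * (g' * v * r')) (cut ε₀ (y * y)) (y * y)]
  · set p := x * g * u with hp
    set q := y * g' * v with hq
    rw [show star (g * u * r) * (x * y) * (g' * v * r') =
      star r * (star (p - u) * q + star u * (q - v) + u * v) * r' by
        rw [hp, hq]
        simp only [star_sub, star_mul, hxs, hus, mul_sub, sub_mul, mul_add, add_mul, mul_assoc]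
        abel]
    have huv : ‖u * v‖ ≤ ε₀ / (4 * R ^ 2) :=
      (pow_le_pow_iff_left₀ (norm_nonneg _) (by positivity) (by norm_num : (4 : ℕ) ≠ 0)).1
        ((norm_sqrt_mul_sqrt_le ha hb ha1 hb1).trans hab)
    have hqn : ‖q‖ ≤ 2 := by
      linarith [norm_le_norm_add_norm_sub' q v, min_le_left 1 (ε₀ / (8 * R ^ 2))]
    have h1 : ‖star (p - u) * q + star u * (q - v) + u * v‖ ≤
        τ * 2 + 1 * τ + ε₀ / (4 * R ^ 2) := by
      refine (norm_add₃_le).trans (add_le_add (add_le_add ((norm_mul_le _ _).trans ?_)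
        ((norm_mul_le _ _).trans ?_)) huv)
      · rw [norm_star]; exact mul_le_mul hg hqn (norm_nonneg _) hτ0.le
      · rw [norm_star]; exact mul_le_mul hu1 hg' (norm_nonneg _) one_pos.le
    have hrs : ‖star r‖ ≤ R := (norm_star r).le.trans hrR
    refine (norm_mul₃_le).trans_lt (lt_of_le_of_lt (mul_le_mul (mul_le_mul hrs h1 (norm_nonneg _)
      (by linarith)) hrR' (norm_nonneg _) (by positivity)) ?_)
    have h := min_le_right 1 (ε₀ / (8 * R ^ 2))
    rw [← hτ, le_div_iff₀ (by positivity)] at h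
    have : ε₀ / (4 * R ^ 2) * R ^ 2 = ε₀ / 4 := by field_simp
    nlinarith

/-- Almost orthogonal full elements for all pairs give strong pure infiniteness. -/
theorem stronglyPurelyInfinite_of_full (hC : PurelyInfinite C)
    (H : ∀ x y : C, 0 ≤ x → 0 ≤ y → ∀ ε : ℝ, 0 < ε → ∃ c : ℝ, 0 < c ∧ ∀ η : ℝ, 0 < η →
      ∃ a b : C, 0 ≤ a ∧ 0 ≤ b ∧ ‖a‖ ≤ 1 ∧ ‖b‖ ≤ 1 ∧ InHer x a ∧ InHer y b ∧ ‖a * b‖ ≤ η ∧
        cut ε (x * x) ∈ idealGen (cut c a) ∧ cut ε (y * y) ∈ idealGen (cut c b)) :
    StronglyPurelyInfinite C :=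
  fun x y hx hy _ hε => exists_pair_of_full hC hx hy (H x y hx hy) hε

end Vale.Agent.P133
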