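import Vale.Agent.P133.Basic
import Mathlib.Analysis.LocallyConvex.Separation

/-!
P133: quasi-central units of an ideal. The proof uses no states: a functional restricted to the
ideal almost attains its norm at some element, hence it is small on `(1 - e) J` once `e` is a
unit for that element; Hahn-Banach then turns weak into norm smallness of commutators.
-/

namespace Vale.Agent.P133

open scoped ComplexOrder

variable {C : Type*} [NonUnitalCStarAlgebra C] [PartialOrder C] [StarOrderedRing C]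

/-- A unit, inside the ideal, for finitely many of its elements. -/
theorem exists_unit_near (J : Submodule ℂ C) (hl : ∀ u : C, ∀ x ∈ J, u * x ∈ J)
    (hr : ∀ u : C, ∀ x ∈ J, x * u ∈ J) (X : Finset C) (hX : ∀ x ∈ X, x ∈ J) {η : ℝ}
    (hη : 0 < η) :
    ∃ e ∈ J, 0 ≤ e ∧ ‖e‖ ≤ 1 ∧ ∀ x ∈ X, ‖x - e * x‖ < η ∧ ‖x - x * e‖ < η := by
  set a : C := ∑ x ∈ X, (x * star x + star x * x) with ha
  have haJ : a ∈ J := Submodule.sum_mem _ fun x hx => add_mem (hr _ x (hX x hx)) (hl _ x (hX x hx))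
  have ha0 : 0 ≤ a := Finset.sum_nonneg fun x _ =>
    add_nonneg (mul_star_self_nonneg x) (star_mul_self_nonneg x)
  set δ : ℝ := (η / 2) ^ 4 with hδ
  have hδ0 : 0 < δ := by positivity
  have hden : ∀ t : ℝ, t ^ 2 + δ ≠ 0 := fun t => by positivity
  set f : ℝ → ℝ := fun t => t ^ 2 / (t ^ 2 + δ) with hf
  set g : ℝ → ℝ := fun t => t / (t ^ 2 + δ) with hg
  have hfc : Continuous f := Continuous.div (by fun_prop) (by fun_prop) hden
  have hgc : Continuous g := Continuous.div (by fun_prop) (by fun_prop) hden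
  have hf0 : f 0 = 0 := by simp [hf]
  have hg0 : g 0 = 0 := by simp [hg]
  set e := cfcₙ f a with he
  have heJ : e ∈ J := by
    have h := cfcₙ_mul (fun t : ℝ => t) g a continuous_id.continuousOn rfl hgc.continuousOn hg0
    rw [cfcₙ_id' ℝ a] at h
    have : e = a * cfcₙ g a := by
      rw [he, ← h]
      exact cfcₙ_congr fun t _ => by simp only [hf, hg]; ring
    rw [this]
    exact hr _ a haJ
  have he0 : 0 ≤ e := cfcₙ_nonneg fun t _ => by positivity
  have hes : star e = e := (IsSelfAdjoint.of_nonneg he0).star_eq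
  have he1 : ‖e‖ ≤ 1 := by
    refine norm_cfcₙ_le fun t _ => ?_
    simp only [hf]
    rw [Real.norm_of_nonneg (by positivity), div_le_one (by positivity)]
    linarith
  set D : C → C := fun y => y - e * y - y * e + e * y * e with hD
  have hsq : ∀ y : C, D (y * star y) = (y - e * y) * star (y - e * y) := fun y => by
    simp only [hD, star_sub, star_mul, hes, sub_mul, mul_sub, mul_assoc]
    abel
  have hDa : ‖D a‖ ≤ √δ := by
    simp only [hD, he, cfcₙ_defect ha0 hfc hf0]
    refine norm_cfcₙ_le fun t ht => ?_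
    have ht0 := quasispectrum_nonneg_of_nonneg a ha0 t ht
    have hs := Real.sqrt_nonneg δ
    have hss := Real.sq_sqrt hδ0.le
    have e1 : t - f t * t - t * f t + f t * t * f t =
        (δ / (t ^ 2 + δ)) * (δ * t / (t ^ 2 + δ)) := by
      simp only [hf]
      field_simp
      ring
    have h1 : δ * t / (t ^ 2 + δ) ≤ √δ := by
      rw [div_le_iff₀ (by positivity)]
      nlinarith [sq_nonneg (t - √δ), mul_nonneg hs ht0]
    have h2 : δ / (t ^ 2 + δ) ≤ 1 := by rw [div_le_one (by positivity)]; nlinarith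
    rw [e1, Real.norm_of_nonneg (by positivity)]
    exact (mul_le_of_le_one_left (by positivity) h2).trans h1
  have hsmall : ∀ y : C, y * star y ≤ a → ‖y - e * y‖ < η := fun y hy => by
    have hle : D (y * star y) ≤ D a := by
      rw [← sub_nonneg]
      set d := CFC.sqrt (a - y * star y) with hd
      have hds : star d = d := (IsSelfAdjoint.of_nonneg (CFC.sqrt_nonneg _)).star_eq
      have hdd : d * star d = a - y * star y := by
        rw [hds]; exact CFC.sqrt_mul_sqrt_self _ (sub_nonneg.2 hy)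
      have : D a - D (y * star y) = (d - e * d) * star (d - e * d) := by
        rw [← hsq, hdd]
        simp only [hD, mul_sub, sub_mul]
        abel
      rw [this]
      exact mul_star_self_nonneg _
    have h := CStarAlgebra.norm_le_norm_of_nonneg_of_le
      (hsq y ▸ mul_star_self_nonneg _) hle
    rw [hsq, CStarRing.norm_self_mul_star] at h
    have hq : √δ = (η / 2) ^ 2 := by
      rw [hδ, show (η / 2) ^ 4 = ((η / 2) ^ 2) ^ 2 by ring, Real.sqrt_sq (by positivity)]
    have := h.trans hDa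
    rw [hq] at this
    nlinarith [norm_nonneg (y - e * y)]
  refine ⟨e, heJ, he0, he1, fun x hx => ?_⟩
  have hxa : x * star x + star x * x ≤ a :=
    Finset.single_le_sum (f := fun z : C => z * star z + star z * z)
      (fun z _ => add_nonneg (mul_star_self_nonneg z) (star_mul_self_nonneg z)) hx
  refine ⟨hsmall x ((le_add_of_nonneg_right (star_mul_self_nonneg x)).trans hxa), ?_⟩
  have h := hsmall (star x) (by
    rw [star_star]
    exact (le_add_of_nonneg_left (mul_star_self_nonneg x)).trans hxa)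
  rwa [← norm_star, star_sub, star_star, star_mul, star_star, hes] at h

/-- The row `(e, 1 - e)` is a contraction. -/
theorem norm_row_sq_le {e : C} (he : 0 ≤ e) (he1 : ‖e‖ ≤ 1) (a b : C) :
    ‖e * a + (b - e * b)‖ ^ 2 ≤ ‖a‖ ^ 2 + ‖b‖ ^ 2 := by
  have hes : star e = e := (IsSelfAdjoint.of_nonneg he).star_eq
  have hee : e * e ≤ e := (mul_self_le_norm_smul he).trans
    ((smul_le_smul_of_nonneg_right he1 he).trans_eq (one_smul ℝ e))
  have hkey : star (e * a + (b - e * b)) * (e * a + (b - e * b)) ≤ star a * a + star b * b := by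
    have h : star a * a + star b * b - star (e * a + (b - e * b)) * (e * a + (b - e * b)) =
        star (a - e * a - e * b) * (a - e * a - e * b) +
          (2 : ℝ) • (star a * (e - e * e) * a + star b * (e - e * e) * b) := by
      simp only [two_smul, star_add, star_sub, star_mul, hes, add_mul, mul_add, sub_mul, mul_sub,
        mul_assoc]
      abel
    rw [← sub_nonneg, h]
    refine add_nonneg (star_mul_self_nonneg _) (smul_nonneg zero_le_two (add_nonneg ?_ ?_)) <;>
      exact star_left_conjugate_nonneg (sub_nonneg.2 hee) _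
  have h := CStarAlgebra.norm_le_norm_of_nonneg_of_le (star_mul_self_nonneg _) hkey
  rw [CStarRing.norm_star_mul_self] at h
  have h2 := h.trans (norm_add_le _ _)
  rw [CStarRing.norm_star_mul_self, CStarRing.norm_star_mul_self] at h2
  rw [sq, sq, sq]
  exact h2

omit [PartialOrder C] [StarOrderedRing C] in
/-- A unit scalar turning a complex number into its modulus. -/
theorem exists_phase (z : ℂ) : ∃ c : ℂ, ‖c‖ = 1 ∧ c * z = (‖z‖ : ℂ) := by
  refine ⟨if z = 0 then 1 else (starRingEnd ℂ) z / (‖z‖ : ℂ), ?_, ?_⟩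
  · split_ifs with h
    · simp
    · simp [h]
  · split_ifs with h
    · simp [h]
    · rw [div_mul_eq_mul_div, Complex.conj_mul', sq,
        mul_div_cancel_right₀ _ (by simpa using h)]

/-- A functional is small on `(1 - e) J` once `e` is a unit for a well chosen element of `J`. -/
theorem exists_test (J : Submodule ℂ C) (hl : ∀ u : C, ∀ x ∈ J, u * x ∈ J)
    (φ : C →L[ℂ] ℂ) {η : ℝ} (hη : 0 < η) :
    ∃ j₀ ∈ J, ∃ η' : ℝ, 0 < η' ∧ ∀ e : C, 0 ≤ e → ‖e‖ ≤ 1 → ‖j₀ - e * j₀‖ < η' →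
      ∀ j ∈ J, ‖φ (j - e * j)‖ ≤ η * ‖j‖ := by
  set t : ℝ := η / (‖φ‖ + 1) with ht
  have ht0 : 0 < t := by positivity
  set S : Set ℝ := {r | ∃ j ∈ J, ‖j‖ ≤ 1 ∧ r = ‖φ j‖} with hS
  have hSne : S.Nonempty := ⟨0, 0, J.zero_mem, by simp, by simp⟩
  have hSb : BddAbove S := ⟨‖φ‖, by
    rintro r ⟨j, _, hj, rfl⟩
    exact (φ.le_opNorm j).trans (mul_le_of_le_one_right (norm_nonneg _) hj)⟩
  obtain ⟨r, ⟨j₀, hj₀J, hj₀, rfl⟩, hr⟩ :=
    exists_lt_of_lt_csSup hSne (show sSup S - t * η / 4 < sSup S by nlinarith)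
  refine ⟨j₀, hj₀J, t * η / (4 * (‖φ‖ + 1)), by positivity, fun e he he1 hej j hjJ => ?_⟩
  have hN : 0 ≤ sSup S := (norm_nonneg _).trans (le_csSup hSb ⟨j₀, hj₀J, hj₀, rfl⟩)
  have hNφ : sSup S ≤ ‖φ‖ := csSup_le hSne (by
    rintro r ⟨i, _, hi, rfl⟩
    exact (φ.le_opNorm i).trans (mul_le_of_le_one_right (norm_nonneg _) hi))
  rcases eq_or_ne j 0 with rfl | hj0
  · simp
  have hjn : 0 < ‖j‖ := norm_pos_iff.2 hj0
  obtain ⟨c, hc, hcz⟩ := exists_phase (φ (e * j₀))
  obtain ⟨d, hd, hdz⟩ := exists_phase (φ (j - e * j))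
  set b : C := ((t / ‖j‖ : ℝ) : ℂ) • (d • j) with hb
  set w : C := e * (c • j₀) + (b - e * b) with hw
  have hbJ : b ∈ J := J.smul_mem _ (J.smul_mem _ hjJ)
  have hwJ : w ∈ J := add_mem (hl _ _ (J.smul_mem _ hj₀J)) (sub_mem hbJ (hl _ _ hbJ))
  have hbn : ‖b‖ = t := by
    rw [hb, norm_smul, norm_smul, hd, one_mul, Complex.norm_real,
      Real.norm_of_nonneg (by positivity), div_mul_cancel₀ _ hjn.ne']
  have hwn : ‖w‖ ^ 2 ≤ 1 + t ^ 2 := by
    refine (norm_row_sq_le he he1 _ _).trans ?_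
    rw [hbn, norm_smul, hc, one_mul]
    nlinarith [norm_nonneg j₀]
  have hφw : φ w = ((‖φ (e * j₀)‖ + t / ‖j‖ * ‖φ (j - e * j)‖ : ℝ) : ℂ) := by
    simp only [hw, hb, mul_smul_comm, ← smul_sub, map_add, map_smul, smul_eq_mul, hcz, hdz]
    push_cast
    ring
  have hle : ‖φ w‖ ≤ sSup S * ‖w‖ := by
    rcases eq_or_ne w 0 with h0 | h0
    · simp [h0]
    have hwn0 : 0 < ‖w‖ := norm_pos_iff.2 h0
    have h := le_csSup hSb (show ‖φ (((‖w‖⁻¹ : ℝ) : ℂ) • w)‖ ∈ S from
      ⟨_, J.smul_mem _ hwJ, by simp [norm_smul, hwn0.ne'], rfl⟩)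
    rw [map_smul, norm_smul, Complex.norm_real, Real.norm_of_nonneg (by positivity),
      inv_mul_le_iff₀ hwn0] at h
    linarith
  rw [hφw, Complex.norm_real, Real.norm_of_nonneg (by positivity)] at hle
  have hw1 : ‖w‖ ≤ 1 + t ^ 2 / 2 := by nlinarith [norm_nonneg w, sq_nonneg (t ^ 2)]
  have hz : sSup S - t * η / 2 ≤ ‖φ (e * j₀)‖ := by
    have h1 : ‖φ j₀‖ - ‖φ (e * j₀)‖ ≤ ‖φ‖ * (t * η / (4 * (‖φ‖ + 1))) := by
      refine (norm_sub_norm_le _ _).trans ?_
      rw [← map_sub]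
      exact (φ.le_opNorm _).trans (mul_le_mul_of_nonneg_left hej.le (norm_nonneg _))
    have h2 : ‖φ‖ * (t * η / (4 * (‖φ‖ + 1))) ≤ t * η / 4 := by
      rw [mul_div_assoc', div_le_div_iff₀ (by positivity) (by norm_num)]
      nlinarith [norm_nonneg φ, mul_pos ht0 hη]
    linarith
  have htN : sSup S * t ≤ η := by
    rw [ht, mul_div_assoc', div_le_iff₀ (by positivity)]
    nlinarith
  have h5 : t / ‖j‖ * ‖φ (j - e * j)‖ ≤ t * η := by
    nlinarith [mul_le_mul_of_nonneg_left hw1 hN, mul_le_mul_of_nonneg_right htN ht0.le]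
  rw [div_mul_eq_mul_div, div_le_iff₀ hjn, mul_assoc] at h5
  exact le_of_mul_le_mul_left h5 ht0

/-- Quasi-central units: a unit of the ideal for `X` almost commuting with `S`. -/
theorem exists_quasicentral (J : Submodule ℂ C) (hl : ∀ u : C, ∀ x ∈ J, u * x ∈ J)
    (hr : ∀ u : C, ∀ x ∈ J, x * u ∈ J) (hs : ∀ x ∈ J, star x ∈ J) (X : Finset C)
    (hX : ∀ x ∈ X, x ∈ J) (S : Finset C) {ε : ℝ} (hε : 0 < ε) :
    ∃ e ∈ J, 0 ≤ e ∧ ‖e‖ ≤ 1 ∧ (∀ x ∈ X, ‖x - e * x‖ < ε ∧ ‖x - x * e‖ < ε) ∧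
      ∀ s ∈ S, ‖e * s - s * e‖ < ε := by
  classical
  set T : C → ({s // s ∈ S} → C) := fun e s => e * s - s * e with hT
  set E : Set C := {e | e ∈ J ∧ 0 ≤ e ∧ ‖e‖ ≤ 1 ∧
    ∀ x ∈ X, ‖x - e * x‖ < ε ∧ ‖x - x * e‖ < ε} with hE
  have hconv : Convex ℝ (T '' E) := by
    rintro _ ⟨e, ⟨heJ, he0, he1, hex⟩, rfl⟩ _ ⟨f, ⟨hfJ, hf0, hf1, hfx⟩, rfl⟩ a b ha hb hab
    refine ⟨a • e + b • f, ⟨?_, ?_, ?_, fun x hx => ?_⟩, ?_⟩
    · rw [← Complex.coe_smul, ← Complex.coe_smul]
      exact add_mem (J.smul_mem _ heJ) (J.smul_mem _ hfJ)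
    · exact add_nonneg (smul_nonneg ha he0) (smul_nonneg hb hf0)
    · exact mem_closedBall_zero_iff.1 (convex_closedBall (0 : C) 1 (mem_closedBall_zero_iff.2 he1)
        (mem_closedBall_zero_iff.2 hf1) ha hb hab)
    · have hx1 : x - (a • e + b • f) * x = a • (x - e * x) + b • (x - f * x) := by
        simp only [smul_sub, add_mul, smul_mul_assoc]
        rw [sub_add_sub_comm, ← add_smul, hab, one_smul]
      have hx2 : x - x * (a • e + b • f) = a • (x - x * e) + b • (x - x * f) := by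
        simp only [smul_sub, mul_add, mul_smul_comm]
        rw [sub_add_sub_comm, ← add_smul, hab, one_smul]
      rw [hx1, hx2]
      exact ⟨mem_ball_zero_iff.1 (convex_ball (0 : C) ε (mem_ball_zero_iff.2 (hex x hx).1)
          (mem_ball_zero_iff.2 (hfx x hx).1) ha hb hab),
        mem_ball_zero_iff.1 (convex_ball (0 : C) ε (mem_ball_zero_iff.2 (hex x hx).2)
          (mem_ball_zero_iff.2 (hfx x hx).2) ha hb hab)⟩
    · funext s
      simp only [hT, Pi.add_apply, Pi.smul_apply, add_mul, mul_add, smul_mul_assoc, mul_smul_comm,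
        smul_sub]
      abel
  by_cases h0 : (0 : {s // s ∈ S} → C) ∈ closure (T '' E)
  · obtain ⟨_, ⟨e, ⟨heJ, he0, he1, hex⟩, rfl⟩, hd⟩ := Metric.mem_closure_iff.1 h0 ε hε
    rw [dist_zero_left] at hd
    exact ⟨e, heJ, he0, he1, hex, fun s hsS => (norm_le_pi_norm (T e) ⟨s, hsS⟩).trans_lt hd⟩
  exfalso
  obtain ⟨F, u, hFu, hu⟩ :=
    RCLike.geometric_hahn_banach_closed_point (𝕜 := ℂ) hconv.closure isClosed_closure h0
  simp only [map_zero] at hu
  set φ : {s // s ∈ S} → (C →L[ℂ] ℂ) := fun s =>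
    F.comp (ContinuousLinearMap.single ℂ (fun _ : {s // s ∈ S} => C) s) with hφ
  set ψ : {s // s ∈ S} → (C →L[ℂ] ℂ) := fun s => LinearMap.mkContinuous
    { toFun := fun x => (starRingEnd ℂ) (φ s (star x))
      map_add' := fun x y => by simp
      map_smul' := fun r x => by simp } ‖φ s‖ (fun x => by
      simpa using ((φ s).le_opNorm (star x))) with hψ
  set W : ℝ := ∑ s : {s // s ∈ S}, 2 * ‖(s : C)‖ with hW
  set η : ℝ := -u / (W + 1) with hη'
  have hW0 : 0 ≤ W := Finset.sum_nonneg fun s _ => by positivity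
  have hη : 0 < η := div_pos (by linarith) (by positivity)
  choose p hpJ a ha hp using fun s => exists_test J hl (φ s) hη
  choose q hqJ b hb hq using fun s => exists_test J hl (ψ s) hη
  obtain ⟨m, hm, hm'⟩ : ∃ m : ℝ, 0 < m ∧ m ≤ ε ∧ ∀ s, m ≤ a s ∧ m ≤ b s := by
    have hne : ((insert ε (Finset.univ.image a)) ∪ Finset.univ.image b).Nonempty :=
      ⟨ε, by simp⟩
    refine ⟨Finset.min' _ hne, ?_, Finset.min'_le _ _ (by simp), fun s =>
      ⟨Finset.min'_le _ _ (by simp), Finset.min'_le _ _ (by simp)⟩⟩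
    rw [Finset.lt_min'_iff]
    intro x hx
    simp only [Finset.mem_union, Finset.mem_insert, Finset.mem_image, Finset.mem_univ,
      true_and] at hx
    rcases hx with (rfl | ⟨s, rfl⟩) | ⟨s, rfl⟩
    exacts [hε, ha s, hb s]
  obtain ⟨e, heJ, he0, he1, heX⟩ := exists_unit_near J hl hr
    (X ∪ Finset.univ.image p ∪ Finset.univ.image q) (by
      simp only [Finset.mem_union, Finset.mem_image, Finset.mem_univ, true_and]
      rintro x ((hx | ⟨s, rfl⟩) | ⟨s, rfl⟩)
      exacts [hX x hx, hpJ s, hqJ s]) hm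
  have hes : star e = e := (IsSelfAdjoint.of_nonneg he0).star_eq
  have hTe : T e ∈ closure (T '' E) := subset_closure ⟨e, ⟨heJ, he0, he1, fun x hx =>
    ⟨(heX x (by simp [hx])).1.trans_le hm'.1, (heX x (by simp [hx])).2.trans_le hm'.1⟩⟩, rfl⟩
  have hFT : F (T e) = ∑ s, φ s (T e s) := by
    conv_lhs => rw [← Finset.univ_sum_single (T e)]
    rw [map_sum]
    rfl
  have hsm : ∀ s, ‖φ s (T e s)‖ ≤ η * (2 * ‖(s : C)‖) := fun s => by
    have h1 := hp s e he0 he1 ((heX (p s) (by simp)).1.trans_le (hm'.2 s).1) _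
      (hl (s : C) e heJ)
    have h2 := hq s e he0 he1 ((heX (q s) (by simp)).1.trans_le (hm'.2 s).2) _
      (hs _ (hr (s : C) e heJ))
    have h2' : ‖φ s (e * s - e * s * e)‖ ≤ η * ‖star (e * (s : C))‖ := by
      refine le_of_eq_of_le ?_ h2
      simp only [hψ, LinearMap.mkContinuous_apply, LinearMap.coe_mk, AddHom.coe_mk,
        RCLike.norm_conj, star_sub, star_mul, star_star, hes, mul_assoc]
    have e1 : T e s = (e * s - e * s * e) - ((s : C) * e - e * (s * e)) := by
      simp only [hT, mul_assoc]; abel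
    rw [e1, map_sub]
    refine (norm_sub_le _ _).trans ((add_le_add h2' h1).trans ?_)
    rw [norm_star, ← mul_add]
    refine mul_le_mul_of_nonneg_left ?_ hη.le
    have := norm_mul_le e (s : C)
    have := norm_mul_le (s : C) e
    nlinarith [norm_nonneg (s : C)]
  have h1 : -(η * W) ≤ (F (T e)).re := by
    have : ‖F (T e)‖ ≤ η * W := by
      rw [hFT, hW, Finset.mul_sum]
      exact (norm_sum_le _ _).trans (Finset.sum_le_sum fun s _ => hsm s)
    exact (abs_le.1 ((Complex.abs_re_le_norm _).trans this)).1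
  have h2 : (F (T e)).re < u := hFu _ hTe
  have h3 : η * (W + 1) = -u := div_mul_cancel₀ _ (by positivity)
  nlinarith

end Vale.Agent.P133
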