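import Vale.Agent.P133.Projection

/-!
P133: in a purely infinite algebra, if the ideal of `x` is generated by projections then the
hereditary subalgebra of `x` holds projections generating as much of it as needed.
-/

namespace Vale.Agent.P133

open scoped ComplexOrder

set_option linter.unusedSectionVars false
set_option maxHeartbeats 800000

variable {C : Type*} [NonUnitalCStarAlgebra C] [PartialOrder C] [StarOrderedRing C]

/-- The closed ideal of `x` is generated, as a closed ideal, by projections lying in it. -/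
def ProjectionGenerated (x : C) : Prop :=
  x ∈ (Submodule.span ℂ {e : C | ∃ a p b : C, star p = p ∧ p * p = p ∧ p ∈ idealGen x ∧
    e = a * p * b}).topologicalClosure

theorem sqrt_mul_mul_sqrt_inHer {x : C} (hx : 0 ≤ x) (c : C) :
    InHer x (CFC.sqrt x * c * CFC.sqrt x) := by
  intro ε hε
  set s := CFC.sqrt x with hs
  set τ := min 1 (ε / ((2 * ‖s‖ + 1) * (‖c‖ + 1) + 1)) with hτ
  have hτ0 : 0 < τ := lt_min one_pos (by positivity)
  have hden : ∀ t : ℝ, t ^ 2 + τ ^ 4 ≠ 0 := fun t => by positivity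
  set g : ℝ → ℝ := fun t => √|t| * t / (t ^ 2 + τ ^ 4) with hg
  have hgc : Continuous g := Continuous.div (by fun_prop) (by fun_prop) hden
  have hg0 : g 0 = 0 := by simp [hg]
  have hclose : ‖s - x * cfcₙ g x‖ ≤ τ := by
    rw [hs, CFC.sqrt_eq_real_sqrt x]
    nth_rw 2 [← cfcₙ_id' ℝ x]
    rw [← cfcₙ_mul _ _ x, ← cfcₙ_sub _ _ x]
    refine norm_cfcₙ_le fun t ht => ?_
    have ht0 := quasispectrum_nonneg_of_nonneg x hx t ht
    have e : √t - t * g t = √t * τ ^ 4 / (t ^ 2 + τ ^ 4) := by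
      simp only [hg, abs_of_nonneg ht0]
      field_simp
      ring
    rw [e, Real.norm_of_nonneg (by positivity), div_le_iff₀ (by positivity)]
    have hs := Real.sqrt_nonneg t
    have hsq := Real.sq_sqrt ht0
    rcases le_total (√t) τ with h1 | h1
    · calc √t * τ ^ 4 ≤ τ * τ ^ 4 := mul_le_mul_of_nonneg_right h1 (pow_nonneg hτ0.le 4)
        _ ≤ τ * (t ^ 2 + τ ^ 4) :=
            mul_le_mul_of_nonneg_left (by nlinarith [sq_nonneg t]) hτ0.le
    · have h2 : τ ^ 3 * √t ≤ √t ^ 4 := by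
        have := pow_le_pow_left₀ hτ0.le h1 3
        nlinarith [mul_le_mul_of_nonneg_right this hs]
      have : √t ^ 4 = t ^ 2 := by rw [show √t ^ 4 = (√t ^ 2) ^ 2 by ring, hsq]
      nlinarith [mul_le_mul_of_nonneg_left h2 hτ0.le, pow_pos hτ0 4]
  set G := cfcₙ g x with hG
  have hGs : star G = G := (cfcₙ_predicate g x : IsSelfAdjoint G).star_eq
  have hxs := (IsSelfAdjoint.of_nonneg hx).star_eq
  have hss : star s = s := (IsSelfAdjoint.of_nonneg (CFC.sqrt_nonneg x)).star_eq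
  refine ⟨G * c * G, ?_⟩
  set u := x * G with hu
  have hu' : star u = G * x := by rw [hu, star_mul, hGs, hxs]
  have e : s * c * s - x * (G * c * G) * x = (s - u) * c * s + u * c * (s - star u) := by
    rw [hu', hu]; simp only [sub_mul, mul_sub, mul_assoc]; abel
  have hsu : ‖s - star u‖ ≤ τ := by
    rw [← norm_star, star_sub, star_star, hss]; exact hclose
  have hun : ‖u‖ ≤ ‖s‖ + 1 := by
    have := norm_le_norm_add_norm_sub' u s
    rw [norm_sub_rev] at hclose
    linarith [min_le_left 1 (ε / ((2 * ‖s‖ + 1) * (‖c‖ + 1) + 1))]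
  rw [e]
  calc ‖(s - u) * c * s + u * c * (s - star u)‖ ≤ τ * ‖c‖ * ‖s‖ + (‖s‖ + 1) * ‖c‖ * τ := by
        refine (norm_add_le _ _).trans (add_le_add (norm_mul₃_le.trans ?_)
          (norm_mul₃_le.trans ?_))
        · exact mul_le_mul_of_nonneg_right (mul_le_mul_of_nonneg_right hclose (norm_nonneg _))
            (norm_nonneg _)
        · exact mul_le_mul (mul_le_mul_of_nonneg_right hun (norm_nonneg _)) hsu (norm_nonneg _)
            (by positivity)
    _ = τ * ((2 * ‖s‖ + 1) * ‖c‖) := by ring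
    _ < τ * ((2 * ‖s‖ + 1) * (‖c‖ + 1) + 1) := by
        refine mul_lt_mul_of_pos_left ?_ hτ0
        nlinarith [norm_nonneg s]
    _ ≤ ε := by rw [← le_div_iff₀ (by positivity)]; exact min_le_right _ _

theorem mem_idealGen_of_inHer {x q : C} (hx : 0 ≤ x) (hq : InHer x q) : q ∈ idealGen x := by
  have hI := isStarIdeal_idealGen (IsSelfAdjoint.of_nonneg hx).star_eq
  rw [← SetLike.mem_coe, ← hI.closed.closure_eq, Metric.mem_closure_iff]
  intro ε hε
  obtain ⟨c, hc⟩ := hq ε hε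
  exact ⟨x * c * x, hI.mul_right x _ (hI.mul_right c x (mem_idealGen_self hx)), by
    rwa [dist_eq_norm]⟩

/-- Two projections in the ideal of `x` lie in the ideal of one projection of the hereditary
subalgebra of `x`. -/
theorem exists_combine (hC : PurelyInfinite C) {x p1 p2 : C} (hx : 0 ≤ x)
    (h1s : star p1 = p1) (h1 : p1 * p1 = p1) (h1m : p1 ∈ idealGen x)
    (h2s : star p2 = p2) (h2 : p2 * p2 = p2) (h2m : p2 ∈ idealGen x) :
    ∃ q : C, star q = q ∧ q * q = q ∧ InHer x q ∧ p1 ∈ idealGen q ∧ p2 ∈ idealGen q := by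
  have hp1 : 0 ≤ p1 := by simpa [h1s, h1] using star_mul_self_nonneg p1
  have hp2 : 0 ≤ p2 := by simpa [h2s, h2] using star_mul_self_nonneg p2
  have hn1 : ‖p1‖ ≤ 1 := by
    have h := CStarRing.norm_star_mul_self (x := p1)
    rw [h1s, h1] at h
    nlinarith [norm_nonneg p1]
  have hn2 : ‖p2‖ ≤ 1 := by
    have h := CStarRing.norm_star_mul_self (x := p2)
    rw [h2s, h2] at h
    nlinarith [norm_nonneg p2]
  set δ : ℝ := 1 / 1000 with hδ
  obtain ⟨r1, hr1⟩ := hC.exists_conj_of_mem hx hp1 h1m (show 0 < δ / 2 by norm_num [hδ])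
  obtain ⟨r2, hr2⟩ := hC.exists_conj_of_mem hx hp2 h2m (show 0 < δ / 2 by norm_num [hδ])
  set K := (‖r1‖ + ‖r2‖ + 1) ^ 2 with hK
  have hK0 : 0 < K := by positivity
  have hK1 : ‖r1‖ ≤ ‖r1‖ + ‖r2‖ + 1 := by linarith [norm_nonneg r2]
  have hK2 : ‖r2‖ ≤ ‖r1‖ + ‖r2‖ + 1 := by linarith [norm_nonneg r1]
  obtain ⟨a, b, ha, hb, hab⟩ := hC x hx (δ / (2 * K)) (div_pos (by norm_num [hδ]) (by positivity))
  set s := CFC.sqrt x with hs
  have hss : star s = s := (IsSelfAdjoint.of_nonneg (CFC.sqrt_nonneg x)).star_eq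
  have hsq : s * s = x := CFC.sqrt_mul_sqrt_self x hx
  have hmid : ∀ u v m : C, ‖m‖ ≤ δ / (2 * K) → ‖u‖ ≤ ‖r1‖ + ‖r2‖ + 1 →
      ‖v‖ ≤ ‖r1‖ + ‖r2‖ + 1 → ‖star u * m * v‖ ≤ δ / 2 := fun u v m hm hu hv => by
    refine norm_mul₃_le.trans ?_
    rw [norm_star]
    calc ‖u‖ * ‖m‖ * ‖v‖ ≤ (‖r1‖ + ‖r2‖ + 1) * (δ / (2 * K)) * (‖r1‖ + ‖r2‖ + 1) :=
          mul_le_mul (mul_le_mul hu hm (norm_nonneg _) (by positivity)) hv (norm_nonneg _)
            (mul_nonneg (by positivity) ((norm_nonneg _).trans hm))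
      _ = δ / 2 := by rw [hK]; field_simp
  have hp : ∀ {p : C}, p * p = p → star p = p → ‖p‖ ≤ 1 → ∀ m : C, ‖m - p‖ ≤ δ →
      ‖star p * m * p - p‖ ≤ δ := fun {p} hp hps hpn m hm => by
    have e : star p * m * p - p = p * (m - p) * p := by
      rw [hps, mul_sub, sub_mul, hp, hp]
    rw [e]
    refine norm_mul₃_le.trans ?_
    calc ‖p‖ * ‖m - p‖ * ‖p‖ ≤ 1 * δ * 1 :=
          mul_le_mul (mul_le_mul hpn hm (norm_nonneg _) zero_le_one) hpn (norm_nonneg _)
            (by norm_num [hδ])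
      _ = δ := by ring
  set W1 := s * a * r1 * p1 with hW1
  set W2 := s * b * r2 * p2 with hW2
  have hWW : ∀ u v p q m n : C,
      star (s * u * m * p) * (s * v * n * q) = star p * (star m * (star u * x * v) * n) * q :=
    fun u v p q m n => by
      simp only [star_mul, hss, ← hsq, mul_assoc]
  have e11 : ‖star W1 * W1 - p1‖ ≤ δ := by
    rw [hW1, hWW]
    refine hp h1 h1s hn1 _ ?_
    have := hmid r1 r1 _ ha.le hK1 hK1
    rw [mul_sub, sub_mul] at this
    refine (norm_sub_le_norm_sub_add_norm_sub _ (star r1 * x * r1) _).trans ?_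
    exact (add_le_add this hr1.le).trans (le_of_eq (by ring))
  have e22 : ‖star W2 * W2 - p2‖ ≤ δ := by
    rw [hW2, hWW]
    refine hp h2 h2s hn2 _ ?_
    have := hmid r2 r2 _ hb.le hK2 hK2
    rw [mul_sub, sub_mul] at this
    refine (norm_sub_le_norm_sub_add_norm_sub _ (star r2 * x * r2) _).trans ?_
    exact (add_le_add this hr2.le).trans (le_of_eq (by ring))
  have e12 : ‖star W1 * W2‖ ≤ δ := by
    rw [hW1, hW2, hWW]
    refine norm_mul₃_le.trans ?_
    have h := hmid r1 r2 _ hab.le hK1 hK2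
    rw [norm_star]
    calc ‖p1‖ * _ * ‖p2‖ ≤ 1 * (δ / 2) * 1 :=
          mul_le_mul (mul_le_mul hn1 h (norm_nonneg _) zero_le_one) hn2 (norm_nonneg _)
            (by norm_num [hδ])
      _ ≤ δ := by norm_num [hδ]
  have e21 : ‖star W2 * W1‖ ≤ δ := by
    rw [← norm_star, star_mul, star_star]; exact e12
  have hW1p : W1 * p1 = W1 := by rw [hW1, mul_assoc, h1]
  have hW2p : W2 * p2 = W2 := by rw [hW2, mul_assoc, h2]
  have hWn : ∀ {W p : C}, ‖p‖ ≤ 1 → ‖star W * W - p‖ ≤ δ → ‖W‖ ≤ 2 := fun {W p} hpn hW => by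
    have h := norm_sub_norm_le (star W * W) p
    rw [CStarRing.norm_star_mul_self] at h
    rw [hδ] at hW
    nlinarith [norm_nonneg W]
  have hW1n : ‖W1‖ ≤ 2 := hWn hn1 e11
  have hW2n : ‖W2‖ ≤ 2 := hWn hn2 e22
  set P := W1 * star W1 + W2 * star W2 with hP
  have hP0 : 0 ≤ P := add_nonneg (mul_star_self_nonneg W1) (mul_star_self_nonneg W2)
  have hPP : ‖P * P - P‖ ≤ 16 * δ := by
    have e : P * P - P = W1 * (star W1 * W1 - p1) * star W1 + W1 * (star W1 * W2) * star W2 +
        (W2 * (star W2 * W1) * star W1 + W2 * (star W2 * W2 - p2) * star W2) := by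
      have k1 : W1 * p1 * star W1 = W1 * star W1 := by rw [hW1p]
      have k2 : W2 * p2 * star W2 = W2 * star W2 := by rw [hW2p]
      rw [hP, mul_sub, sub_mul, mul_sub, sub_mul, k1, k2]
      simp only [add_mul, mul_add, mul_assoc]
      abel
    have hb : ∀ {U V m : C}, ‖U‖ ≤ 2 → ‖V‖ ≤ 2 → ‖m‖ ≤ δ → ‖U * m * star V‖ ≤ 4 * δ :=
      fun {U V m} hU hV hm => by
        refine norm_mul₃_le.trans ?_
        rw [norm_star]
        calc ‖U‖ * ‖m‖ * ‖V‖ ≤ 2 * δ * 2 := mul_le_mul (mul_le_mul hU hm (norm_nonneg _)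
              zero_le_two) hV (norm_nonneg _) (by norm_num [hδ])
          _ = 4 * δ := by ring
    rw [e]
    refine (norm_add_le _ _).trans ?_
    linarith [norm_add_le (W1 * (star W1 * W1 - p1) * star W1) (W1 * (star W1 * W2) * star W2),
      norm_add_le (W2 * (star W2 * W1) * star W1) (W2 * (star W2 * W2 - p2) * star W2),
      hb hW1n hW1n e11, hb hW1n hW2n e12, hb hW2n hW1n e21, hb hW2n hW2n e22]
  have hPsa : IsSelfAdjoint P := IsSelfAdjoint.of_nonneg hP0
  have hspec : ∀ t ∈ quasispectrum ℝ P, t ≤ 1 / 4 ∧ t ≤ 32 * δ ∨ 3 / 4 ≤ t ∧ |1 - t| ≤ 32 * δ := by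
    intro t ht
    have hid : ContinuousOn (fun u : ℝ => u) (quasispectrum ℝ P) := continuous_id.continuousOn
    have e : cfcₙ (fun u : ℝ => u * u - u) P = P * P - P := by
      rw [cfcₙ_sub (fun u : ℝ => u * u) (fun u => u) P (hid.mul hid) (by simp) hid rfl,
        cfcₙ_mul (fun u : ℝ => u) (fun u => u) P hid rfl hid rfl, cfcₙ_id' ℝ P hPsa]
    have h := norm_apply_le_norm_cfcₙ (fun u : ℝ => u * u - u) P ht (by fun_prop) (by simp) hPsa
    rw [e, Real.norm_eq_abs] at h
    obtain ⟨h3, h4⟩ := abs_le.1 (h.trans hPP)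
    have ht0 := quasispectrum_nonneg_of_nonneg P hP0 t ht
    rcases le_total t (1 / 2) with hh | hh
    · left
      have := mul_le_mul_of_nonneg_left hh ht0
      rw [hδ] at h3 h4 ⊢
      constructor <;> linarith
    · right
      rw [hδ] at h3 h4 ⊢
      rcases le_total t 1 with h1t | h1t
      · have := mul_le_mul_of_nonneg_right hh (sub_nonneg.2 h1t)
        exact ⟨by linarith, abs_le.2 ⟨by linarith, by linarith⟩⟩
      · have := mul_le_mul_of_nonneg_right hh (sub_nonneg.2 h1t)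
        exact ⟨by linarith, abs_le.2 ⟨by linarith, by linarith⟩⟩
  set χ : ℝ → ℝ := ramp (1 / 4) (3 / 4) with hχ
  have hc : (1 / 4 : ℝ) < 3 / 4 := by norm_num
  have hχc : Continuous χ := continuous_ramp _ _
  have hχ0 : χ 0 = 0 := ramp_zero hc (by norm_num)
  set q := cfcₙ χ P with hq
  have hqs : star q = q := (cfcₙ_predicate χ P : IsSelfAdjoint q).star_eq
  have hqq : q * q = q := by
    rw [hq, ← cfcₙ_mul χ χ P hχc.continuousOn hχ0 hχc.continuousOn hχ0]
    refine cfcₙ_congr fun t ht => ?_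
    rcases hspec t ht with h | h
    · rw [hχ, ramp_of_le hc h.1, mul_zero]
    · rw [hχ, ramp_of_ge hc h.1, one_mul]
  have hPq : ‖P - q‖ ≤ 32 * δ := by
    have e : cfcₙ (fun u : ℝ => u - χ u) P = P - q := by
      rw [cfcₙ_sub (fun u : ℝ => u) χ P continuous_id.continuousOn rfl hχc.continuousOn hχ0,
        cfcₙ_id' ℝ P hPsa]
    rw [← e]
    refine norm_cfcₙ_le fun t ht => ?_
    have ht0 := quasispectrum_nonneg_of_nonneg P hP0 t ht
    rcases hspec t ht with h | h
    · rw [hχ, ramp_of_le hc h.1, sub_zero, Real.norm_of_nonneg ht0]; exact h.2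
    · rw [hχ, ramp_of_ge hc h.1, Real.norm_eq_abs, abs_sub_comm]; exact h.2
  have hqx : InHer x q := by
    set ρ : ℝ → ℝ := fun t => χ t / max (t * t) (1 / 16) with hρ
    have hρc : Continuous ρ := Continuous.div hχc (by fun_prop)
      fun t => (lt_max_of_lt_right (by norm_num)).ne'
    have hρ0 : ρ 0 = 0 := by simp [hρ, hχ0]
    have hid : ContinuousOn (fun u : ℝ => u) (quasispectrum ℝ P) := continuous_id.continuousOn
    have e : q = P * cfcₙ ρ P * P := by
      have e1 := cfcₙ_mul (fun u : ℝ => u) ρ P hid rfl hρc.continuousOn hρ0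
      have e2 := cfcₙ_mul (fun u : ℝ => u * ρ u) (fun u => u) P
        (hid.mul hρc.continuousOn) (by simp) hid rfl
      rw [cfcₙ_id' ℝ P hPsa] at e1 e2
      rw [← e1, ← e2, hq]
      refine cfcₙ_congr fun t _ => ?_
      rcases le_total t (1 / 4) with h | h
      · simp only [hρ, hχ]
        rw [ramp_of_le hc h]
        simp
      · have : t ≠ 0 := (lt_of_lt_of_le (by norm_num : (0:ℝ) < 1 / 4) h).ne'
        simp only [hρ, max_eq_left (show (1 / 16 : ℝ) ≤ t * t by nlinarith)]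
        field_simp
    obtain ⟨N, hN⟩ : ∃ N, P = s * N * s :=
      ⟨a * r1 * p1 * (star p1 * (star r1 * star a)) + b * r2 * p2 * (star p2 * (star r2 * star b)), by
        simp only [hP, hW1, hW2, star_mul, hss, add_mul, mul_add, mul_assoc]⟩
    rw [e, hN]
    have : s * N * s * cfcₙ ρ P * (s * N * s) = s * (N * s * cfcₙ ρ P * s * N) * s := by
      simp only [mul_assoc]
    rw [hN] at this
    rw [this, hs]
    exact sqrt_mul_mul_sqrt_inHer hx _
  have hJ := isStarIdeal_idealGen hqs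
  have hPJ : qn (idealGen q) P ≤ 32 * δ := by
    refine (qn_le_norm_sub ?_).trans hPq
    exact mem_idealGen_self (by simpa [hqs, hqq] using star_mul_self_nonneg q)
  have hmem : ∀ {W p : C}, p * p = p → ‖W‖ ≤ 2 → ‖star W * W - p‖ ≤ δ → W * star W ≤ P →
      p ∈ idealGen q := fun {W p} hp hW hWp hle => by
    have h1 : qn (idealGen q) (star W * W) ≤ 32 * δ := by
      rw [qn_star_mul_self hJ, ← qn_mul_star_self hJ]
      exact (qn_le_of_le hJ (mul_star_self_nonneg W) hle).trans hPJ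
    have h2 := qn_le_add_norm (J := idealGen q) p (star W * W)
    rw [norm_sub_rev] at h2
    have h3 := qn_mul_le hJ p p
    rw [hp] at h3
    rw [← qn_eq_zero hJ]
    have h0 := qn_nonneg (J := idealGen q) p
    rw [hδ] at h1 hWp
    nlinarith
  exact ⟨q, hqs, hqq, hqx, hmem h1 hW1n e11 (le_add_of_nonneg_right (mul_star_self_nonneg W2)),
    hmem h2 hW2n e22 (le_add_of_nonneg_left (mul_star_self_nonneg W1))⟩

/-- Projections in the hereditary subalgebra generating as much of the ideal as wished. -/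
theorem ProjectionGenerated.exists_projection (hC : PurelyInfinite C) {x : C} (hx : 0 ≤ x)
    (hg : ProjectionGenerated x) {ε : ℝ} (hε : 0 < ε) :
    ∃ p : C, star p = p ∧ p * p = p ∧ InHer x p ∧ cut ε (x * x) ∈ idealGen p := by
  set δ := min 1 (ε / 2) with hδ
  have hδ0 : 0 < δ := lt_min one_pos (by linarith)
  obtain ⟨e, he, hxe⟩ := Metric.mem_closure_iff.1 hg δ hδ0
  rw [dist_eq_norm] at hxe
  have key : ∃ q : C, star q = q ∧ q * q = q ∧ q ∈ idealGen x ∧ InHer x q ∧ e ∈ idealGen q := by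
    clear hxe
    induction he using Submodule.span_induction with
    | mem e he =>
      obtain ⟨a, p, b, hps, hpp, hpm, rfl⟩ := he
      obtain ⟨q, hqs, hqq, hqx, hpq, _⟩ :=
        exists_combine hC hx hps hpp hpm (star_zero C) (mul_zero 0) (zero_mem _)
      have hJ := isStarIdeal_idealGen hqs
      exact ⟨q, hqs, hqq, mem_idealGen_of_inHer hx hqx, hqx,
        hJ.mul_right b _ (hJ.mul_left a _ hpq)⟩
    | zero =>
      exact ⟨0, star_zero C, mul_zero 0, zero_mem _, fun η hη => ⟨0, by simpa using hη⟩, zero_mem _⟩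
    | add u v _ _ hu hv =>
      obtain ⟨q1, h1s, h1, h1m, -, hu⟩ := hu
      obtain ⟨q2, h2s, h2, h2m, -, hv⟩ := hv
      obtain ⟨q, hqs, hqq, hqx, hq1, hq2⟩ := exists_combine hC hx h1s h1 h1m h2s h2 h2m
      have hJ := isStarIdeal_idealGen hqs
      exact ⟨q, hqs, hqq, mem_idealGen_of_inHer hx hqx, hqx,
        add_mem (idealGen_le hJ hq1 hu) (idealGen_le hJ hq2 hv)⟩
    | smul r u _ hu =>
      obtain ⟨q, hqs, hqq, hqm, hqx, hu⟩ := hu
      exact ⟨q, hqs, hqq, hqm, hqx, Submodule.smul_mem _ r hu⟩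
  obtain ⟨q, hqs, hqq, -, hqx, heq⟩ := key
  have hJ := isStarIdeal_idealGen hqs
  refine ⟨q, hqs, hqq, hqx, cut_mem_of_qn_lt hJ (IsSelfAdjoint.of_nonneg hx).mul_self_nonneg ?_⟩
  have h1 : qn (idealGen q) x ≤ δ := (qn_le_norm_sub heq).trans hxe.le
  have h2 := (qn_mul_le hJ x x).trans (mul_le_mul h1 h1 (qn_nonneg _) hδ0.le)
  have h3 : δ * δ ≤ δ := mul_le_of_le_one_left hδ0.le (min_le_left _ _)
  linarith [min_le_right 1 (ε / 2)]

/-- The three inequalities for a pair one of whose ideals is generated by projections. -/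
theorem exists_pair_of_projectionGenerated (hC : PurelyInfinite C) {x y : C} (hx : 0 ≤ x)
    (hy : 0 ≤ y) (hg : ProjectionGenerated x) {ε : ℝ} (hε : 0 < ε) : ∃ s t : C,
    ‖star s * (x * x) * s - x * x‖ < ε ∧ ‖star t * (y * y) * t - y * y‖ < ε ∧
      ‖star s * (x * y) * t‖ < ε := by
  refine exists_pair_of_full hC hx hy (fun ε hε => ?_) hε
  obtain ⟨p, hps, hpp, hpx, hcut⟩ := hg.exists_projection hC hx hε
  obtain ⟨c, hc, hH⟩ := exists_almost_orthogonal hC hy hps hpp hpx hε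
  refine ⟨c, hc, fun η hη => ?_⟩
  obtain ⟨a, b, ha, hb, ha1, hb1, hax, hby, hab, hpa, hyb⟩ := hH η hη
  exact ⟨a, b, ha, hb, ha1, hb1, hax, hby, hab, idealGen_le
    (isStarIdeal_idealGen (IsSelfAdjoint.of_nonneg (cut_nonneg c a)).star_eq) hpa hcut, hyb⟩

end Vale.Agent.P133
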