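import Vale.Agent.P133.Basic

/-!
P133: the distance to the closed ideal generated by a self-adjoint element behaves as a
C*-norm.
-/

namespace Vale.Agent.P133

open scoped ComplexOrder

set_option linter.unusedSectionVars false

variable {C : Type*} [NonUnitalCStarAlgebra C] [PartialOrder C] [StarOrderedRing C]

/-- Distance to a submodule. -/
noncomputable def qn (J : Submodule ℂ C) (x : C) : ℝ := Metric.infDist x (J : Set C)

/-- A closed two-sided ideal, closed under the adjoint. -/
structure IsStarIdeal (J : Submodule ℂ C) : Prop where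
  closed : IsClosed (J : Set C)
  mul_left : ∀ u : C, ∀ x ∈ J, u * x ∈ J
  mul_right : ∀ u : C, ∀ x ∈ J, x * u ∈ J
  star_mem : ∀ x ∈ J, star x ∈ J

theorem isStarIdeal_idealGen {a : C} (ha : star a = a) : IsStarIdeal (idealGen a) where
  closed := Submodule.isClosed_topologicalClosure _
  mul_left u x hx := by
    refine map_mem_closure (f := fun y => u * y) (continuous_const_mul u) hx fun y hy => ?_
    induction hy using Submodule.span_induction with
    | mem y hy =>
      obtain ⟨p, q, rfl⟩ := hy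
      exact Submodule.subset_span ⟨u * p, q, by simp only [mul_assoc]⟩
    | zero => simp
    | add y₁ y₂ _ _ h₁ h₂ => simpa [mul_add] using add_mem h₁ h₂
    | smul r y _ hy => simpa [mul_smul_comm] using Submodule.smul_mem _ r hy
  mul_right u x hx := by
    refine map_mem_closure (f := fun y => y * u) (continuous_mul_const u) hx fun y hy => ?_
    induction hy using Submodule.span_induction with
    | mem y hy =>
      obtain ⟨p, q, rfl⟩ := hy
      exact Submodule.subset_span ⟨p, q * u, by simp only [mul_assoc]⟩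
    | zero => simp
    | add y₁ y₂ _ _ h₁ h₂ => simpa [add_mul] using add_mem h₁ h₂
    | smul r y _ hy => simpa [smul_mul_assoc] using Submodule.smul_mem _ r hy
  star_mem x hx := by
    refine map_mem_closure (f := fun y => star y) continuous_star hx fun y hy => ?_
    induction hy using Submodule.span_induction with
    | mem y hy =>
      obtain ⟨p, q, rfl⟩ := hy
      exact Submodule.subset_span ⟨star q, star p, by simp only [star_mul, ha, mul_assoc]⟩
    | zero => simp
    | add y₁ y₂ _ _ h₁ h₂ => simpa using add_mem h₁ h₂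
    | smul r y _ hy => simpa using Submodule.smul_mem _ (star r) hy

/-- A positive element lies in its own ideal. -/
theorem mem_idealGen_self {a : C} (ha : 0 ≤ a) : a ∈ idealGen a := by
  rw [← SetLike.mem_coe, idealGen, Submodule.topologicalClosure_coe, Metric.mem_closure_iff]
  intro ε hε
  set δ : ℝ := (ε / 2) ^ 2 with hδ
  have hδ0 : 0 < δ := by positivity
  set φ : ℝ → ℝ := fun t => t ^ 2 / (t ^ 2 + δ) with hφ
  have hφc : Continuous φ := Continuous.div (by fun_prop) (by fun_prop) fun t => by positivity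
  have hφ0 : φ 0 = 0 := by simp [hφ]
  refine ⟨cfcₙ φ a * a * cfcₙ φ a, Submodule.subset_span ⟨_, _, rfl⟩, ?_⟩
  rw [dist_eq_norm, cfcₙ_conj ha hφc hφ0]
  have e : cfcₙ (fun t : ℝ => t - φ t * t * φ t) a = a - cfcₙ (fun t => φ t * t * φ t) a := by
    rw [cfcₙ_sub (fun t : ℝ => t) (fun t => φ t * t * φ t) a continuous_id.continuousOn rfl
      ((hφc.mul continuous_id).mul hφc).continuousOn (by simp [hφ0]), cfcₙ_id' ℝ a]
  rw [← e]
  refine (norm_cfcₙ_le fun t ht => ?_).trans_lt (half_lt_self hε)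
  have ht0 := quasispectrum_nonneg_of_nonneg a ha t ht
  have hφ1 : φ t ≤ 1 := by
    simp only [hφ]; rw [div_le_one (by positivity)]; linarith
  have hφp : 0 ≤ φ t := by simp only [hφ]; positivity
  have h1 : t - φ t * t = δ * t / (t ^ 2 + δ) := by
    simp only [hφ]; field_simp; ring
  have h2 : δ * t / (t ^ 2 + δ) ≤ ε / 2 / 2 := by
    rw [div_le_iff₀ (by positivity), hδ]
    nlinarith [sq_nonneg (t - ε / 2), mul_nonneg ht0 hε.le]
  have h3 : 0 ≤ t - φ t * t := by nlinarith
  rw [Real.norm_of_nonneg (by nlinarith)]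
  nlinarith

theorem idealGen_le {a : C} {J : Submodule ℂ C} (hJ : IsStarIdeal J) (h : a ∈ J) :
    idealGen a ≤ J := by
  refine Submodule.topologicalClosure_minimal _ (Submodule.span_le.2 ?_) hJ.closed
  rintro _ ⟨p, q, rfl⟩
  exact hJ.mul_right q _ (hJ.mul_left p _ h)

variable {J : Submodule ℂ C}

theorem qn_nonneg (x : C) : 0 ≤ qn J x := Metric.infDist_nonneg

theorem qn_le_norm_sub {x j : C} (hj : j ∈ J) : qn J x ≤ ‖x - j‖ := by
  rw [← dist_eq_norm]; exact Metric.infDist_le_dist_of_mem hj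

theorem qn_le_norm (x : C) : qn J x ≤ ‖x‖ := by
  simpa using qn_le_norm_sub (x := x) (zero_mem J)

theorem exists_near (x : C) {r : ℝ} (h : qn J x < r) : ∃ j ∈ J, ‖x - j‖ < r := by
  obtain ⟨j, hj, hd⟩ := (Metric.infDist_lt_iff ⟨0, zero_mem J⟩).1 h
  exact ⟨j, hj, by rwa [← dist_eq_norm]⟩

theorem qn_eq_zero (hJ : IsStarIdeal J) {x : C} : qn J x = 0 ↔ x ∈ J :=
  (hJ.closed.mem_iff_infDist_zero ⟨0, zero_mem J⟩).symm

theorem qn_le_add_norm (x y : C) : qn J x ≤ qn J y + ‖x - y‖ := by
  rw [← dist_eq_norm]; exact Metric.infDist_le_infDist_add_dist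

theorem qn_add_le (x y : C) : qn J (x + y) ≤ qn J x + qn J y := by
  refine le_of_forall_pos_le_add fun δ hδ => ?_
  obtain ⟨j, hj, hjx⟩ := exists_near (J := J) x (r := qn J x + δ / 2) (by linarith)
  obtain ⟨k, hk, hky⟩ := exists_near (J := J) y (r := qn J y + δ / 2) (by linarith)
  refine (qn_le_norm_sub (add_mem hj hk)).trans ?_
  rw [add_sub_add_comm]
  linarith [norm_add_le (x - j) (y - k)]

theorem qn_neg (x : C) : qn J (-x) = qn J x := by
  have h : ∀ x : C, qn J (-x) ≤ qn J x := fun x =>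
    le_of_forall_pos_le_add fun δ hδ => by
      obtain ⟨j, hj, hjx⟩ := exists_near (J := J) x (r := qn J x + δ) (by linarith)
      refine (qn_le_norm_sub (neg_mem hj)).trans ?_
      rw [← norm_neg]; simp only [neg_sub_neg, neg_sub]; linarith
  exact le_antisymm (h x) (by simpa using h (-x))

theorem qn_smul_le {r : ℝ} (x : C) : qn J (r • x) ≤ |r| * qn J x := by
  refine le_of_forall_pos_le_add fun δ hδ => ?_
  obtain ⟨j, hj, hjx⟩ := exists_near (J := J) x (r := qn J x + δ / (|r| + 1))
    (by linarith [show 0 < δ / (|r| + 1) by positivity])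
  have hmem : r • j ∈ J := by
    rw [← Complex.coe_smul]; exact J.smul_mem _ hj
  refine (qn_le_norm_sub hmem).trans ?_
  rw [← smul_sub, norm_smul, Real.norm_eq_abs]
  have h1 : |r| * (δ / (|r| + 1)) ≤ δ := by
    rw [mul_div_assoc', div_le_iff₀ (by positivity)]; nlinarith [abs_nonneg r]
  nlinarith [abs_nonneg r]

theorem qn_mul_le (hJ : IsStarIdeal J) (x y : C) : qn J (x * y) ≤ qn J x * qn J y := by
  have key : ∀ a b : ℝ, qn J x < a → qn J y < b → qn J (x * y) ≤ a * b := by
    intro a b ha hb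
    obtain ⟨j, hj, hjx⟩ := exists_near (J := J) x ha
    obtain ⟨k, hk, hky⟩ := exists_near (J := J) y hb
    have hm : j * y + (x - j) * k ∈ J := add_mem (hJ.mul_right y j hj) (hJ.mul_left _ k hk)
    refine (qn_le_norm_sub hm).trans ?_
    rw [show x * y - (j * y + (x - j) * k) = (x - j) * (y - k) by
      simp only [sub_mul, mul_sub]; abel]
    exact (norm_mul_le _ _).trans (mul_le_mul hjx.le hky.le (norm_nonneg _)
      ((norm_nonneg _).trans hjx.le))
  refine le_of_forall_pos_le_add fun δ hδ => ?_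
  set e := min 1 (δ / (qn J x + qn J y + 1)) with he
  have hx0 := qn_nonneg (J := J) x
  have hy0 := qn_nonneg (J := J) y
  have he0 : 0 < e := lt_min one_pos (by positivity)
  refine (key _ _ (lt_add_of_pos_right _ he0) (lt_add_of_pos_right _ he0)).trans ?_
  have h1 : e * (qn J x + qn J y + 1) ≤ δ := by
    rw [← le_div_iff₀ (by positivity)]; exact min_le_right _ _
  nlinarith [min_le_left 1 (δ / (qn J x + qn J y + 1)), he]

theorem qn_star (hJ : IsStarIdeal J) (x : C) : qn J (star x) = qn J x := by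
  have h : ∀ x : C, qn J (star x) ≤ qn J x := fun x =>
    le_of_forall_pos_le_add fun δ hδ => by
      obtain ⟨j, hj, hjx⟩ := exists_near (J := J) x (r := qn J x + δ) (by linarith)
      refine (qn_le_norm_sub (hJ.star_mem j hj)).trans ?_
      rw [← star_sub, norm_star]; linarith
  exact le_antisymm (h x) (by simpa using h (star x))

/-- Functions supported where another one is at least `δ` vanish modulo the ideal if the latter
is smaller than `δ` there. -/
theorem cfc_mem_of_qn_lt (hJ : IsStarIdeal J) {z : C} (hz : IsSelfAdjoint z) {F : ℝ → ℝ}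
    (hF : Continuous F) (hF0 : F 0 = 0) {δ : ℝ} (hδ : 0 < δ) (h : qn J (cfcₙ F z) < δ)
    {f : ℝ → ℝ} (hf : Continuous f) (hf0 : f 0 = 0)
    (hs : ∀ t ∈ quasispectrum ℝ z, f t ≠ 0 → δ ≤ F t) : cfcₙ f z ∈ J := by
  set r := qn J (cfcₙ F z) with hr
  have hr0 : 0 ≤ r := qn_nonneg _
  have key : ∀ (n : ℕ) (g : ℝ → ℝ) (M : ℝ), Continuous g → g 0 = 0 → 0 ≤ M →
      (∀ t ∈ quasispectrum ℝ z, ‖g t‖ ≤ M) → (∀ t ∈ quasispectrum ℝ z, g t ≠ 0 → δ ≤ F t) →
      qn J (cfcₙ g z) ≤ (r / δ) ^ n * M := by
    intro n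
    induction n with
    | zero =>
      intro g M _ _ hM hb _
      simpa using (qn_le_norm _).trans (norm_cfcₙ_le fun t ht => hb t ht)
    | succ n ih =>
      intro g M hg hg0 hM hb hsup
      have hden : ∀ t, max (F t) δ ≠ 0 := fun t => (lt_max_of_lt_right hδ).ne'
      set k : ℝ → ℝ := fun t => g t / max (F t) δ with hk
      have hkc : Continuous k := hg.div (hF.max continuous_const) hden
      have hk0 : k 0 = 0 := by simp [hk, hg0]
      have heq : cfcₙ g z = cfcₙ F z * cfcₙ k z := by
        rw [← cfcₙ_mul F k z hF.continuousOn hF0 hkc.continuousOn hk0]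
        refine cfcₙ_congr fun t ht => ?_
        by_cases h0 : g t = 0
        · simp [hk, h0]
        · simp only [hk, max_eq_left (hsup t ht h0)]
          rw [mul_div_cancel₀ _ (lt_of_lt_of_le hδ (hsup t ht h0)).ne']
      have hkb : ∀ t ∈ quasispectrum ℝ z, ‖k t‖ ≤ M / δ := fun t ht => by
        simp only [hk, norm_div, Real.norm_of_nonneg ((le_max_right (F t) δ).trans' hδ.le)]
        exact div_le_div₀ hM (hb t ht) hδ (le_max_right _ _)
      have hks : ∀ t ∈ quasispectrum ℝ z, k t ≠ 0 → δ ≤ F t := fun t ht hne =>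
        hsup t ht fun h0 => hne (by simp [hk, h0])
      calc qn J (cfcₙ g z) ≤ r * qn J (cfcₙ k z) := by rw [heq]; exact qn_mul_le hJ _ _
        _ ≤ r * ((r / δ) ^ n * (M / δ)) :=
          mul_le_mul_of_nonneg_left (ih k _ hkc hk0 (by positivity) hkb hks) hr0
        _ = (r / δ) ^ (n + 1) * M := by ring
  rw [← qn_eq_zero hJ]
  refine le_antisymm ?_ (qn_nonneg _)
  have hlim : Filter.Tendsto (fun n => (r / δ) ^ n * ‖cfcₙ f z‖) Filter.atTop (nhds 0) := by
    simpa using (tendsto_pow_atTop_nhds_zero_of_lt_one (div_nonneg hr0 hδ.le)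
      ((div_lt_one hδ).2 h)).mul_const ‖cfcₙ f z‖
  exact ge_of_tendsto' hlim fun n => key n f _ hf hf0 (norm_nonneg _)
    (fun t ht => norm_apply_le_norm_cfcₙ f z ht hf.continuousOn hf0 hz) hs

/-- A ramp from `0` at `a` to `1` at `b`. -/
noncomputable def ramp (a b : ℝ) (t : ℝ) : ℝ := min 1 (max 0 ((t - a) / (b - a)))

theorem continuous_ramp (a b : ℝ) : Continuous (ramp a b) := by unfold ramp; fun_prop

theorem ramp_mem (a b t : ℝ) : 0 ≤ ramp a b t ∧ ramp a b t ≤ 1 :=
  ⟨le_min zero_le_one (le_max_left _ _), min_le_left _ _⟩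

theorem ramp_of_le {a b t : ℝ} (hab : a < b) (h : t ≤ a) : ramp a b t = 0 := by
  unfold ramp
  rw [max_eq_left (div_nonpos_of_nonpos_of_nonneg (by linarith) (by linarith)), min_eq_right
    zero_le_one]

theorem ramp_zero {a b : ℝ} (hab : a < b) (ha : 0 ≤ a) : ramp a b 0 = 0 := ramp_of_le hab ha

theorem ramp_of_ge {a b t : ℝ} (hab : a < b) (h : b ≤ t) : ramp a b t = 1 := by
  unfold ramp
  have h1 : 1 ≤ (t - a) / (b - a) := by rw [le_div_iff₀ (by linarith)]; linarith
  rw [min_eq_left (h1.trans (le_max_right _ _))]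

theorem le_of_ramp_ne {a b t : ℝ} (hab : a < b) (h : ramp a b t ≠ 0) : a ≤ t :=
  le_of_not_ge fun h1 => h (ramp_of_le hab h1)

/-- The norm of the part of `z` below a ramp. -/
theorem norm_defect_le {z : C} (hz : 0 ≤ z) {a b : ℝ} (hab : a < b) (ha : 0 ≤ a) :
    ‖z - cfcₙ (ramp a b) z * z - z * cfcₙ (ramp a b) z +
      cfcₙ (ramp a b) z * z * cfcₙ (ramp a b) z‖ ≤ b := by
  rw [cfcₙ_defect hz (continuous_ramp a b) (ramp_zero hab ha)]
  refine norm_cfcₙ_le fun t ht => ?_
  have ht0 := quasispectrum_nonneg_of_nonneg z hz t ht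
  obtain ⟨h0, h1⟩ := ramp_mem a b t
  have e : t - ramp a b t * t - t * ramp a b t + ramp a b t * t * ramp a b t =
      t * (1 - ramp a b t) ^ 2 := by ring
  rw [e, Real.norm_of_nonneg (by positivity)]
  rcases le_total t b with h | h
  · nlinarith [mul_nonneg ht0 h0, mul_nonneg (mul_nonneg ht0 h0) (by linarith : (0:ℝ) ≤ 1 - ramp a b t)]
  · rw [ramp_of_ge hab h]; simp; linarith

theorem norm_sub_ramp_mul_sq_le {v : C} {a b : ℝ} (hab : a < b) (ha : 0 ≤ a) :
    ‖v - cfcₙ (ramp a b) (v * star v) * v‖ ^ 2 ≤ b := by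
  set R := cfcₙ (ramp a b) (v * star v) with hR
  have hRs : star R = R := (cfcₙ_predicate (ramp a b) (v * star v) : IsSelfAdjoint R).star_eq
  have e : (v - R * v) * star (v - R * v) =
      v * star v - R * (v * star v) - v * star v * R + R * (v * star v) * R := by
    simp only [star_sub, star_mul, hRs, sub_mul, mul_sub, mul_assoc]
    abel
  rw [sq, ← CStarRing.norm_self_mul_star, e, hR]
  exact norm_defect_le (mul_star_self_nonneg v) hab ha

theorem qn_le_of_le (hJ : IsStarIdeal J) {u v : C} (hu : 0 ≤ u) (huv : u ≤ v) :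
    qn J u ≤ qn J v := by
  have hv : 0 ≤ v := hu.trans huv
  refine le_of_forall_pos_le_add fun δ hδ => ?_
  set a := qn J v + δ / 2 with ha
  set b := qn J v + δ with hb
  have hv0 := qn_nonneg (J := J) v
  set R := cfcₙ (ramp a b) v with hR
  have hRs : star R = R := (cfcₙ_predicate (ramp a b) v : IsSelfAdjoint R).star_eq
  have hRJ : R ∈ J := by
    refine cfc_mem_of_qn_lt hJ (IsSelfAdjoint.of_nonneg hv) continuous_id rfl
      (show 0 < a by positivity) ?_ (continuous_ramp a b) (ramp_zero (by linarith) (by positivity))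
      fun t _ ht => le_of_ramp_ne (by linarith) ht
    rw [cfcₙ_id ℝ v]; linarith
  let X : C → C := fun y => y - R * y - y * R + R * y * R
  have hX : ∀ y : C, 0 ≤ y → 0 ≤ X y := fun y hy => by
    set d := CFC.sqrt y with hd
    have hds : star d = d := (IsSelfAdjoint.of_nonneg (CFC.sqrt_nonneg _)).star_eq
    have hdd : d * d = y := CFC.sqrt_mul_sqrt_self _ hy
    have : X y = (d - R * d) * star (d - R * d) := by
      simp only [X, star_sub, star_mul, hRs, hds, ← hdd, sub_mul, mul_sub, mul_assoc]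
      abel
    rw [this]; exact mul_star_self_nonneg _
  have hXle : X u ≤ X v := by
    rw [← sub_nonneg]
    have : X v - X u = X (v - u) := by simp only [X, mul_sub, sub_mul]; abel
    rw [this]; exact hX _ (sub_nonneg.2 huv)
  have hmem : R * u + u * R - R * u * R ∈ J :=
    sub_mem (add_mem (hJ.mul_right u R hRJ) (hJ.mul_left u R hRJ)) (hJ.mul_left _ R hRJ)
  refine (qn_le_norm_sub hmem).trans ?_
  rw [show u - (R * u + u * R - R * u * R) = X u by simp only [X]; abel]
  exact (CStarAlgebra.norm_le_norm_of_nonneg_of_le (hX u hu) hXle).trans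
    (norm_defect_le hv (by linarith) (by positivity))

theorem qn_mul_star_self (hJ : IsStarIdeal J) (v : C) : qn J (v * star v) = qn J v ^ 2 := by
  refine le_antisymm ((qn_mul_le hJ _ _).trans (by rw [qn_star hJ, sq])) ?_
  refine le_of_forall_pos_le_add fun δ hδ => ?_
  have hn := qn_nonneg (J := J) (v * star v)
  set a := qn J (v * star v) + δ / 2 with ha
  set b := qn J (v * star v) + δ with hb
  have hRJ : cfcₙ (ramp a b) (v * star v) ∈ J := by
    refine cfc_mem_of_qn_lt hJ (IsSelfAdjoint.mul_star_self v) continuous_id rfl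
      (show 0 < a by positivity) ?_ (continuous_ramp a b) (ramp_zero (by linarith) (by positivity))
      fun t _ ht => le_of_ramp_ne (by linarith) ht
    rw [cfcₙ_id ℝ (v * star v)]; linarith
  calc qn J v ^ 2 ≤ ‖v - cfcₙ (ramp a b) (v * star v) * v‖ ^ 2 :=
        pow_le_pow_left₀ (qn_nonneg _) (qn_le_norm_sub (hJ.mul_right v _ hRJ)) 2
    _ ≤ b := norm_sub_ramp_mul_sq_le (by linarith) (by positivity)

theorem qn_star_mul_self (hJ : IsStarIdeal J) (v : C) : qn J (star v * v) = qn J v ^ 2 := by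
  simpa [qn_star hJ] using qn_mul_star_self hJ (star v)

theorem qn_cut_self {a : C} (ha : 0 ≤ a) {c : ℝ} (hc : 0 ≤ c) :
    qn (idealGen (cut c a)) a ≤ c :=
  (qn_le_norm_sub (mem_idealGen_self (cut_nonneg c a))).trans (norm_sub_cut_le hc ha)

theorem cut_mem_of_qn_lt (hJ : IsStarIdeal J) {a : C} (ha : 0 ≤ a) {c : ℝ}
    (h : qn J a < c) : cut c a ∈ J := by
  have hc : 0 < c := (qn_nonneg a).trans_lt h
  refine cfc_mem_of_qn_lt hJ (IsSelfAdjoint.of_nonneg ha) continuous_id rfl hc
    (by rwa [cfcₙ_id ℝ a]) (by fun_prop) (max_eq_right (by linarith)) fun t _ ht => ?_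
  exact le_of_not_ge fun h1 => ht (max_eq_right (sub_nonpos.2 h1))

end Vale.Agent.P133
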