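import Vale.Agent.P133.IdealNorm

/-!
P133: in a purely infinite algebra a projection and an arbitrary positive element have almost
orthogonal full elements in their hereditary subalgebras.
-/

namespace Vale.Agent.P133

open scoped ComplexOrder

set_option linter.unusedSectionVars false
set_option maxHeartbeats 800000

variable {C : Type*} [NonUnitalCStarAlgebra C] [PartialOrder C] [StarOrderedRing C]

/-- The saturation used to normalise an element. -/
noncomputable def sat (t : ℝ) : ℝ := t ^ 3 / (1 + |t| ^ 3)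

theorem continuous_sat : Continuous sat :=
  Continuous.div (by fun_prop) (by fun_prop) fun t => by positivity

theorem sat_mono {s t : ℝ} (hs : 0 ≤ s) (hst : s ≤ t) : sat s ≤ sat t := by
  unfold sat
  rw [abs_of_nonneg hs, abs_of_nonneg (hs.trans hst),
    div_le_div_iff₀ (by positivity) (add_pos_of_pos_of_nonneg one_pos (pow_nonneg (hs.trans hst) 3))]
  nlinarith [pow_le_pow_left₀ hs hst 3]

/-- Two almost orthogonal copies of the top of `h`, inside `h C`. -/
theorem exists_top_copies (hC : PurelyInfinite C) {p h : C} (hh0 : 0 ≤ h) (hph : p * h = h)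
    {θ μ : ℝ} (hθ0 : 0 < θ) (hμ0 : 0 < μ) (hμ1 : μ ≤ 1 / 16) :
    ∃ G v1 v2 t : C, ‖star v1 * v1 - G‖ < μ ∧ ‖star v2 * v2 - G‖ < μ ∧ ‖star v1 * v2‖ < μ ∧
      ‖v1‖ ≤ 2 ∧ ‖v2‖ ≤ 2 ∧ p * v1 = v1 ∧ p * v2 = v2 ∧ h * t = v1 ∧ ‖t‖ ≤ 4 / θ ∧
      ∀ J : Submodule ℂ C, IsStarIdeal J → qn J G < 3 / 4 → cut θ h ∈ J := by
  -- two copies of the top of `h`
  set φ : ℝ → ℝ := ramp (θ / 2) θ with hφ
  have hφc : Continuous φ := continuous_ramp _ _
  have hφ0 : φ 0 = 0 := ramp_zero (by linarith) (by linarith)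
  set ψ : ℝ → ℝ := fun t => √(φ t) with hψ
  have hψc : Continuous ψ := hφc.sqrt
  have hψ0 : ψ 0 = 0 := by simp [hψ, hφ0]
  set G := cfcₙ φ h with hG
  set H := cfcₙ ψ h with hH
  have hHs : star H = H := (cfcₙ_predicate ψ h : IsSelfAdjoint H).star_eq
  have hHH : H * H = G := by
    rw [hH, hG, ← cfcₙ_mul ψ ψ h hψc.continuousOn hψ0 hψc.continuousOn hψ0]
    exact cfcₙ_congr fun t _ => Real.mul_self_sqrt (ramp_mem _ _ t).1
  have hG1 : ‖G‖ ≤ 1 := norm_cfcₙ_le fun t _ => by
    obtain ⟨h0, h1⟩ := ramp_mem (θ / 2) θ t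
    rw [Real.norm_of_nonneg h0]; exact h1
  obtain ⟨a1, a2, ha1, ha2, ha12⟩ := hC G (cfcₙ_nonneg fun t _ => (ramp_mem _ _ t).1) μ hμ0
  set v1 := H * a1 with hv1
  set v2 := H * a2 with hv2
  have hvv : ∀ s t : C, star (H * s) * (H * t) = star s * G * t := fun s t => by
    rw [star_mul, hHs, ← hHH]; simp only [mul_assoc]
  have hn : ∀ {v : C}, ‖star v * v - G‖ < μ → ‖v‖ ≤ 2 := fun {v} hv => by
    have h1 := norm_sub_norm_le (star v * v) G
    rw [CStarRing.norm_star_mul_self] at h1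
    nlinarith [norm_nonneg v]
  have h11 : ‖star v1 * v1 - G‖ < μ := by rw [hv1, hvv]; exact ha1
  have h22 : ‖star v2 * v2 - G‖ < μ := by rw [hv2, hvv]; exact ha2
  have h12 : ‖star v1 * v2‖ < μ := by rw [hv1, hv2, hvv]; exact ha12
  -- the inverse of `h` on the top
  set gf : ℝ → ℝ := fun t => t / max t (θ / 2) ^ 2 with hgf
  have hmx : ∀ t : ℝ, max t (θ / 2) ^ 2 ≠ 0 := fun t =>
    pow_ne_zero 2 (lt_max_of_lt_right (by linarith)).ne'
  have hgc : Continuous gf := Continuous.div (by fun_prop) (by fun_prop) hmx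
  have hg0 : gf 0 = 0 := by simp [hgf]
  set g := cfcₙ gf h with hg
  have hgs : star g = g := (cfcₙ_predicate gf h : IsSelfAdjoint g).star_eq
  have hgn : ‖g‖ ≤ 2 / θ := norm_cfcₙ_le fun t ht => by
    have ht0 := quasispectrum_nonneg_of_nonneg h hh0 t ht
    simp only [hgf]
    rw [Real.norm_of_nonneg (by positivity), div_le_iff₀ (lt_of_le_of_ne (sq_nonneg _) (hmx t).symm),
      div_mul_eq_mul_div, le_div_iff₀ hθ0]
    nlinarith [le_max_left t (θ / 2), le_max_right t (θ / 2)]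
  have hgH : h * g * H = H := by
    rw [hg, hH]
    have e := cfcₙ_mul (fun t : ℝ => t) gf h continuous_id.continuousOn rfl hgc.continuousOn hg0
    rw [cfcₙ_id' ℝ h] at e
    rw [← e, ← cfcₙ_mul (fun t : ℝ => t * gf t) ψ h (continuous_id.mul hgc).continuousOn
      (by simp) hψc.continuousOn hψ0]
    refine cfcₙ_congr fun t _ => ?_
    rcases le_total t (θ / 2) with h1 | h1
    · simp [hψ, hφ, ramp_of_le (show θ / 2 < θ by linarith) h1]
    · have : t ≠ 0 := (lt_of_lt_of_le (by linarith : (0 : ℝ) < θ / 2) h1).ne'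
      simp only [hgf, max_eq_left h1]
      field_simp
  have hgv : h * (g * v1) = v1 := by rw [hv1, ← mul_assoc, ← mul_assoc, hgH]
  have hpv : ∀ s : C, p * (H * s) = H * s := fun s => by
    rw [← hgH, ← mul_assoc, ← mul_assoc p, ← mul_assoc p, hph]
  refine ⟨G, v1, v2, g * v1, h11, h22, h12, hn h11, hn h22, hpv _, hpv _, hgv, ?_, fun J hJ hq => ?_⟩
  · refine (norm_mul_le _ _).trans ?_
    calc ‖g‖ * ‖v1‖ ≤ 2 / θ * 2 := mul_le_mul hgn (hn h11) (norm_nonneg _) (by positivity)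
      _ = 4 / θ := by ring
  · refine cfc_mem_of_qn_lt hJ (IsSelfAdjoint.of_nonneg hh0) hφc hφ0 (by norm_num) hq
      (by fun_prop) (max_eq_right (by linarith)) fun s _ hs => ?_
    rw [hφ, ramp_of_ge (by linarith)
      (le_of_not_ge fun h1 => hs (max_eq_right (sub_nonpos.2 h1)))]
    norm_num

/-- The element on the side of the projection. -/
theorem exists_side_projection {p G v1 v2 : C} (hps : star p = p) (hpp : p * p = p)
    (hp1 : ‖p‖ ≤ 1) {τ μ : ℝ} (hτ0 : 0 < τ) (hτ1 : τ ≤ 1) (hμ : μ = τ ^ 2 / 16)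
    (h11 : ‖star v1 * v1 - G‖ < μ) (h22 : ‖star v2 * v2 - G‖ < μ) (h12 : ‖star v1 * v2‖ < μ)
    (hv1n : ‖v1‖ ≤ 2) (hv2n : ‖v2‖ ≤ 2) (hpv1 : p * v1 = v1) (hpv2 : p * v2 = v2) :
    ∃ a : C, 0 ≤ a ∧ ‖a‖ ≤ 1 ∧ a * p = a ∧ p * a = a ∧ ‖a * v1‖ ≤ √(2 * τ) / 2 ∧
      ∀ J : Submodule ℂ C, IsStarIdeal J → qn J a ≤ 1 / 64 → p ∈ J := by
  have hμ0 : 0 < μ := by rw [hμ]; positivity
  -- the element on the side of `x`
  set Q := v1 * star v1 with hQ
  set χ : ℝ → ℝ := ramp τ (2 * τ) with hχ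
  have hτ2 : τ < 2 * τ := by linarith
  have hχ0 : χ 0 = 0 := ramp_zero hτ2 hτ0.le
  set R := cfcₙ χ Q with hR
  have hRs : star R = R := (cfcₙ_predicate χ Q : IsSelfAdjoint R).star_eq
  have hR1 : ‖R‖ ≤ 1 := norm_cfcₙ_le fun t _ => by
    obtain ⟨h0, h1⟩ := ramp_mem τ (2 * τ) t
    rw [Real.norm_of_nonneg h0]; exact h1
  set rf : ℝ → ℝ := fun t => χ t / max t τ with hrf
  have hrc : Continuous rf := Continuous.div (continuous_ramp _ _) (by fun_prop)
    fun t => (lt_max_of_lt_right hτ0).ne'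
  have hr0 : rf 0 = 0 := by simp [hrf, hχ0]
  set r := cfcₙ rf Q with hr
  have hrn : ‖r‖ ≤ 1 / τ := norm_cfcₙ_le fun t _ => by
    simp only [hrf, norm_div]
    rw [Real.norm_of_nonneg (ramp_mem _ _ t).1, Real.norm_of_nonneg
      (hτ0.le.trans (le_max_right _ _))]
    exact div_le_div₀ zero_le_one (ramp_mem _ _ t).2 hτ0 (le_max_right _ _)
  have hidc : ContinuousOn (fun t : ℝ => t) (quasispectrum ℝ Q) := continuous_id.continuousOn
  have hrQ : r * Q = R ∧ Q * r = R := by
    have hrt : ∀ t, rf t * t = χ t := fun t => by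
      rcases le_total t τ with h1 | h1
      · simp [hrf, hχ, ramp_of_le hτ2 h1]
      · simp only [hrf, max_eq_left h1]
        exact div_mul_cancel₀ _ (lt_of_lt_of_le hτ0 h1).ne'
    constructor
    · rw [hr, hR]
      have e := cfcₙ_mul rf (fun t : ℝ => t) Q hrc.continuousOn hr0 hidc rfl
      rw [cfcₙ_id' ℝ Q] at e
      rw [← e]; exact cfcₙ_congr fun t _ => hrt t
    · rw [hr, hR]
      have e := cfcₙ_mul (fun t : ℝ => t) rf Q hidc rfl hrc.continuousOn hr0
      rw [cfcₙ_id' ℝ Q] at e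
      rw [← e]; exact cfcₙ_congr fun t _ => (mul_comm _ _).trans (hrt t)
  have hpR : p * R = R := by rw [← hrQ.2, hQ, ← mul_assoc, ← mul_assoc, hpv1]
  have hRp : R * p = R := by
    have := congrArg star hpR
    rwa [star_mul, hps, hRs] at this
  set d := p - R with hd
  have hds : star d = d := by rw [hd, star_sub, hps, hRs]
  have hpd : p * d = d := by rw [hd, mul_sub, hpp, hpR]
  have hdp : d * p = d := by rw [hd, sub_mul, hpp, hRp]
  have hdn : ‖d‖ ≤ 2 := (norm_sub_le _ _).trans (by linarith)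
  set a : C := (1 / 4 : ℝ) • (d * d) with ha
  have ha0 : 0 ≤ a := smul_nonneg (by norm_num) (by
    simpa [hds] using star_mul_self_nonneg d)
  have ha_norm : ‖a‖ ≤ 1 := by
    rw [ha, norm_smul, Real.norm_of_nonneg (by norm_num)]
    nlinarith [norm_mul_le d d, norm_nonneg d]
  have hap : a * p = a := by rw [ha, smul_mul_assoc, mul_assoc, hdp]
  have hpa : p * a = a := by rw [ha, mul_smul_comm, ← mul_assoc, hpd]
  have hdv1 : ‖d * v1‖ ≤ √(2 * τ) := by
    have e : d * v1 = v1 - R * v1 := by rw [hd, sub_mul, hpv1]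
    rw [e]
    refine Real.le_sqrt_of_sq_le ?_
    rw [hR, hQ]
    exact norm_sub_ramp_mul_sq_le hτ2 hτ0.le
  refine ⟨a, ha0, ha_norm, hap, hpa, ?_, fun J hJ hqa => ?_⟩
  · rw [ha, smul_mul_assoc, mul_assoc, norm_smul, Real.norm_of_nonneg (by norm_num)]
    nlinarith [norm_mul_le d (d * v1), mul_le_mul hdn hdv1 (norm_nonneg _) zero_le_two]
  have hqd : qn J d ≤ 1 / 4 := by
    have h1 : qn J (d * d) ≤ 4 * (1 / 64) := by
      have e1 : d * d = (4 : ℝ) • a := by rw [ha, smul_smul]; norm_num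
      rw [e1]
      refine (qn_smul_le a).trans ?_
      rw [abs_of_pos (show (0 : ℝ) < 4 by norm_num)]; linarith
    have h2 := qn_star_mul_self hJ d
    rw [hds] at h2
    nlinarith [qn_nonneg (J := J) d]
  have hRv : ‖R * v2‖ ≤ 2 * μ / τ := by
    rw [← hrQ.1, hQ, show r * (v1 * star v1) * v2 = r * v1 * (star v1 * v2) by
      simp only [mul_assoc]]
    refine norm_mul₃_le.trans ?_
    calc ‖r‖ * ‖v1‖ * ‖star v1 * v2‖ ≤ 1 / τ * 2 * μ :=
          mul_le_mul (mul_le_mul hrn hv1n (norm_nonneg _) (by positivity)) h12.le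
            (norm_nonneg _) (by positivity)
      _ = 2 * μ / τ := by ring
  have hqv2 : qn J v2 ≤ 3 * μ / τ := by
    have h1 := qn_le_add_norm (J := J) v2 (d * v2)
    have e1 : v2 - d * v2 = R * v2 := by rw [hd, sub_mul, hpv2]; abel
    rw [e1] at h1
    have h2 := (qn_mul_le hJ d v2).trans (mul_le_mul_of_nonneg_right hqd (qn_nonneg _))
    have h3 : 2 * μ / τ = 2 * (μ / τ) := by ring
    have h4 : 3 * μ / τ = 3 * (μ / τ) := by ring
    have : 0 ≤ μ / τ := by positivity
    linarith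
  have hqG : qn J G ≤ 6 * μ / τ + μ := by
    have h1 := qn_le_add_norm (J := J) G (star v2 * v2)
    rw [norm_sub_rev, qn_star_mul_self hJ] at h1
    have h2 : qn J v2 ≤ 2 := (qn_le_norm v2).trans hv2n
    have h3 : qn J v2 ^ 2 ≤ 2 * (3 * μ / τ) := by
      rw [sq]; exact mul_le_mul h2 hqv2 (qn_nonneg _) zero_le_two
    have h4 : 2 * (3 * μ / τ) = 6 * μ / τ := by ring
    linarith
  have hqQ : qn J (cfcₙ (id : ℝ → ℝ) Q) < τ := by
    rw [cfcₙ_id ℝ Q, hQ, qn_mul_star_self hJ, ← qn_star_mul_self hJ]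
    have h1 := qn_le_add_norm (J := J) (star v1 * v1) G
    have h2 : 6 * μ / τ = 6 * τ / 16 := by rw [hμ]; field_simp
    have h3 : μ ≤ τ / 16 := by rw [hμ]; nlinarith
    linarith
  have hRJ : R ∈ J := cfc_mem_of_qn_lt hJ (IsSelfAdjoint.mul_star_self v1) continuous_id rfl hτ0
    hqQ (continuous_ramp _ _) hχ0 fun t _ ht => le_of_ramp_ne hτ2 ht
  have hqp : qn J p ≤ 1 / 4 := by
    refine le_trans ?_ hqd
    have := qn_add_le (J := J) d R
    rwa [(qn_eq_zero hJ).2 hRJ, add_zero, hd, sub_add_cancel] at this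
  rw [← qn_eq_zero hJ]
  have := qn_mul_le hJ p p
  rw [hpp] at this
  nlinarith [qn_nonneg (J := J) p]

/-- The element on the side of `y`. -/
theorem exists_side_arbitrary {y z G v1 t : C} (hy : 0 ≤ y) {p : C} (hz : z = p * y)
    (hzs : star z = y * p) (hph : p * (z * star z) = z * star z) (hgv : z * star z * t = v1)
    {θ μ ε' : ℝ} (hθ0 : 0 < θ) (hμ1 : μ ≤ 1 / 16) (hε'0 : 0 < ε') (hε'1 : ε' ≤ 1 / 4)
    (h11 : ‖star v1 * v1 - G‖ < μ)
    (hGh : ∀ J : Submodule ℂ C, IsStarIdeal J → qn J G < 3 / 4 → cut θ (z * star z) ∈ J) :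
    ∃ b w u : C, 0 ≤ b ∧ ‖b‖ ≤ 1 ∧ InHer y b ∧ ‖w‖ ≤ 2 * ‖y‖ ∧
      ‖u‖ ≤ ‖y‖ * (‖z‖ * ‖t‖) ∧ ‖p * w‖ ≤ √(3 * θ) ∧ p * u = v1 ∧
      (∃ m : C, ‖m‖ ≤ 1 ∧ b = (w * star w + u * star u) * m) ∧
      ∀ J : Submodule ℂ C, IsStarIdeal J → qn J b < sat ε' →
        ∀ ε : ℝ, ε' < ε → cut ε (y * y) ∈ J := by
  have hys : star y = y := (IsSelfAdjoint.of_nonneg hy).star_eq
  have hyy : 0 ≤ y * y := (IsSelfAdjoint.of_nonneg hy).mul_self_nonneg
  set h := z * star z with hh
  have hh0 : 0 ≤ h := mul_star_self_nonneg z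
  set M := ‖y‖ with hM
  have hM0 : 0 ≤ M := norm_nonneg y
  have hsat0 : 0 < sat ε' := by unfold sat; rw [abs_of_pos hε'0]; positivity
  -- the element on the side of `y`
  set k := star z * z with hk
  have hk0 : 0 ≤ k := star_mul_self_nonneg z
  set e := cfcₙ (ramp (2 * θ) (3 * θ)) k with he
  have hes : star e = e := (cfcₙ_predicate _ k : IsSelfAdjoint e).star_eq
  have he1 : ‖e‖ ≤ 1 := norm_cfcₙ_le fun t _ => by
    obtain ⟨h0, h1⟩ := ramp_mem (2 * θ) (3 * θ) t
    rw [Real.norm_of_nonneg h0]; exact h1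
  set w := y - y * e with hw
  set u := y * (star z * t) with hu
  set X := w * star w + u * star u with hX
  have hX0 : 0 ≤ X := add_nonneg (mul_star_self_nonneg w) (mul_star_self_nonneg u)
  have hXs : star X = X := (IsSelfAdjoint.of_nonneg hX0).star_eq
  set Z := y - e * y - e * y + e * (e * y) +
    star z * t * star (star z * t) * y with hZ
  have hXy : X = y * Z := by
    simp only [hX, hw, hu, hZ, star_sub, star_mul, star_star, hys, hes, sub_mul, mul_sub, mul_add,
      mul_assoc]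
    abel
  have hXy' : X = star Z * y := by rw [← hXs, hXy, star_mul, hys]
  set ρ : ℝ → ℝ := fun t => t / (1 + |t| ^ 3) with hρ
  have hρc : Continuous ρ := Continuous.div (by fun_prop) (by fun_prop) fun t => by positivity
  have hρ0 : ρ 0 = 0 := by simp [hρ]
  set b := cfcₙ sat X with hb
  have hidX : ContinuousOn (fun t : ℝ => t) (quasispectrum ℝ X) := continuous_id.continuousOn
  have hbX : b = X * (cfcₙ ρ X * X) := by
    have e1 := cfcₙ_mul ρ (fun t : ℝ => t) X hρc.continuousOn hρ0 hidX rfl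
    have e2 := cfcₙ_mul (fun t : ℝ => t) (fun t => ρ t * t) X hidX rfl
      (hρc.mul continuous_id).continuousOn (by simp)
    rw [cfcₙ_id' ℝ X] at e1 e2
    rw [← e1, ← e2, hb]
    refine cfcₙ_congr fun t _ => ?_
    simp only [sat, hρ]; ring
  have hb0 : 0 ≤ b := cfcₙ_nonneg fun t ht => by
    have ht0 := quasispectrum_nonneg_of_nonneg X hX0 t ht
    unfold sat; positivity
  have hb_norm : ‖b‖ ≤ 1 := norm_cfcₙ_le fun t _ => by
    unfold sat
    rw [Real.norm_eq_abs, abs_div, abs_pow, abs_of_pos (show 0 < 1 + |t| ^ 3 by positivity),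
      div_le_one (by positivity)]
    linarith
  have hρX : ‖cfcₙ ρ X * X‖ ≤ 1 := by
    have e1 := cfcₙ_mul ρ (fun t : ℝ => t) X hρc.continuousOn hρ0 hidX rfl
    rw [cfcₙ_id' ℝ X] at e1
    rw [← e1]
    refine norm_cfcₙ_le fun t _ => ?_
    simp only [hρ]
    rw [Real.norm_eq_abs, div_mul_eq_mul_div, abs_div, abs_mul_self,
      abs_of_pos (show 0 < 1 + |t| ^ 3 by positivity), div_le_one (by positivity)]
    rcases le_total |t| 1 with h1 | h1
    · nlinarith [abs_mul_abs_self t, abs_nonneg t, pow_nonneg (abs_nonneg t) 3]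
    · nlinarith [abs_mul_abs_self t, abs_nonneg t]
  have hby : InHer y b := fun δ hδ => ⟨Z * cfcₙ ρ X * star Z, by
    have : y * (Z * cfcₙ ρ X * star Z) * y = b := by
      rw [hbX]
      conv_rhs => arg 1; rw [hXy]
      conv_rhs => arg 2; arg 2; rw [hXy']
      simp only [mul_assoc]
    rw [this, sub_self, norm_zero]; exact hδ⟩
  have hzE : ‖z - z * e‖ ≤ √(3 * θ) := by
    refine Real.le_sqrt_of_sq_le ?_
    rw [sq, ← CStarRing.norm_star_mul_self]
    have e1 : star (z - z * e) * (z - z * e) = k - e * k - k * e + e * k * e := by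
      simp only [hk, star_sub, star_mul, hes, sub_mul, mul_sub, mul_assoc]; abel
    rw [e1, he]
    exact norm_defect_le hk0 (by linarith) (by linarith)
  refine ⟨b, w, u, hb0, hb_norm, hby, ?_, ?_, ?_, ?_, ⟨_, hρX, hbX⟩, fun J hJ hqb ε hε => ?_⟩
  · have := norm_mul_le y e
    linarith [norm_sub_le y (y * e), mul_le_of_le_one_right hM0 he1]
  · refine (norm_mul_le _ _).trans (mul_le_mul_of_nonneg_left ((norm_mul_le _ _).trans ?_) hM0)
    rw [norm_star]
  · rw [hw, mul_sub, ← mul_assoc p y e, ← hz]; exact hzE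
  · rw [hu, ← mul_assoc p y, ← hz, ← mul_assoc]; exact hgv
  have hqX : qn J X ≤ ε' := by
    have hmem : cut ε' X ∈ J := by
      refine cfc_mem_of_qn_lt hJ (IsSelfAdjoint.of_nonneg hX0) continuous_sat (by simp [sat])
        hsat0 hqb (by fun_prop) (max_eq_right (by linarith)) fun t _ ht => ?_
      exact sat_mono hε'0.le (le_of_not_ge fun h1 => ht (max_eq_right (sub_nonpos.2 h1)))
    exact (qn_le_norm_sub hmem).trans (norm_sub_cut_le hε'0.le hX0)
  have hqu : qn J (star u * u) ≤ 1 / 4 := by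
    rw [qn_star_mul_self hJ, ← qn_mul_star_self hJ]
    exact ((qn_le_of_le hJ (mul_star_self_nonneg u)
      (le_add_of_nonneg_left (mul_star_self_nonneg w))).trans hqX).trans hε'1
  have hle : star v1 * v1 ≤ star u * u := by
    have e0 : star v1 * v1 = star t * (h * h) * t := by
      conv_lhs => rw [← hgv]
      rw [star_mul, (IsSelfAdjoint.of_nonneg hh0).star_eq]; simp only [mul_assoc]
    have e1 : star u * u = star t * (z * y * (y * star z)) * t := by
      simp only [hu, star_mul, star_star, hys, mul_assoc]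
    have hzy : z * y * h = h * h := by
      calc z * y * h = z * y * (p * h) := by rw [hph]
        _ = z * star z * h := by rw [hzs]; simp only [mul_assoc]
        _ = h * h := rfl
    have hyz : h * (y * star z) = h * h := by
      have := congrArg star hzy
      simpa only [star_mul, hys, (IsSelfAdjoint.of_nonneg hh0).star_eq, mul_assoc] using this
    have e2 : z * y * (y * star z) - h * h = (z * y - h) * star (z * y - h) := by
      simp only [star_sub, star_mul, hys, (IsSelfAdjoint.of_nonneg hh0).star_eq, sub_mul, mul_sub,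
        hyz, hzy]
      abel
    rw [← sub_nonneg, e0, e1, ← sub_mul, ← mul_sub, e2]
    exact star_left_conjugate_nonneg (mul_star_self_nonneg _) t
  have hqG : qn J G < 3 / 4 := by
    have h1 := qn_le_add_norm (J := J) G (star v1 * v1)
    rw [norm_sub_rev] at h1
    have := (qn_le_of_le hJ (star_mul_self_nonneg v1) hle).trans hqu
    linarith
  have hcut : cut θ h ∈ J := hGh J hJ hqG
  have hqh : qn J h ≤ θ := (qn_le_norm_sub hcut).trans (norm_sub_cut_le hθ0.le hh0)
  have hqk : qn J (cfcₙ (id : ℝ → ℝ) k) < 2 * θ := by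
    rw [cfcₙ_id ℝ k, hk, qn_star_mul_self hJ, ← qn_mul_star_self hJ]
    rw [← hh]; linarith
  have heJ : e ∈ J := cfc_mem_of_qn_lt hJ (IsSelfAdjoint.of_nonneg hk0) continuous_id rfl
    (by linarith) hqk (continuous_ramp _ _) (ramp_zero (by linarith) (by linarith))
    fun t _ ht => le_of_ramp_ne (by linarith) ht
  have hqy : qn J y ≤ qn J w := by
    have := qn_add_le (J := J) w (y * e)
    rwa [(qn_eq_zero hJ).2 (hJ.mul_left y e heJ), add_zero, hw, sub_add_cancel] at this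
  refine cut_mem_of_qn_lt hJ hyy ?_
  have h1 : qn J (y * y) = qn J y ^ 2 := by
    have := qn_star_mul_self hJ y
    rwa [hys] at this
  have h2 : qn J w ^ 2 ≤ ε' := by
    rw [← qn_mul_star_self hJ]
    exact (qn_le_of_le hJ (mul_star_self_nonneg w)
      (le_add_of_nonneg_right (mul_star_self_nonneg u))).trans hqX
  have h3 := pow_le_pow_left₀ (qn_nonneg (J := J) y) hqy 2
  linarith

/-- The core construction: a projection in the hereditary subalgebra of `x`, and `y` arbitrary. -/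
theorem exists_almost_orthogonal (hC : PurelyInfinite C) {x y p : C} (hy : 0 ≤ y)
    (hps : star p = p) (hpp : p * p = p) (hpx : InHer x p) {ε : ℝ} (hε : 0 < ε) :
    ∃ c : ℝ, 0 < c ∧ ∀ η : ℝ, 0 < η → ∃ a b : C, 0 ≤ a ∧ 0 ≤ b ∧ ‖a‖ ≤ 1 ∧ ‖b‖ ≤ 1 ∧
      InHer x a ∧ InHer y b ∧ ‖a * b‖ ≤ η ∧
        p ∈ idealGen (cut c a) ∧ cut ε (y * y) ∈ idealGen (cut c b) := by
  have hys : star y = y := (IsSelfAdjoint.of_nonneg hy).star_eq
  have hyy : 0 ≤ y * y := (IsSelfAdjoint.of_nonneg hy).mul_self_nonneg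
  have hp1 : ‖p‖ ≤ 1 := by
    have h := CStarRing.norm_star_mul_self (x := p)
    rw [hps, hpp] at h
    nlinarith [norm_nonneg p]
  set ε' := min (ε / 2) (1 / 4) with hε'
  have hε'0 : 0 < ε' := lt_min (by linarith) (by norm_num)
  have hsat0 : 0 < sat ε' := by unfold sat; rw [abs_of_pos hε'0]; positivity
  refine ⟨min (1 / 64) (sat ε' / 2), lt_min (by norm_num) (by linarith), fun η hη => ?_⟩
  set c := min (1 / 64) (sat ε' / 2) with hc
  have hc0 : 0 < c := lt_min (by norm_num) (by linarith)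
  set M := ‖y‖ with hM
  have hM0 : 0 ≤ M := norm_nonneg y
  -- the parameters
  set θ : ℝ := min 1 ((η / (4 * (M + 1))) ^ 2 / 3) with hθ
  have hθ0 : 0 < θ := lt_min one_pos (by positivity)
  set τ : ℝ := min 1 ((η * θ / (4 * (M + 1) ^ 2)) ^ 2 / 2) with hτ
  have hτ0 : 0 < τ := lt_min one_pos (by positivity)
  have hτ1 : τ ≤ 1 := min_le_left _ _
  set μ : ℝ := τ ^ 2 / 16 with hμ
  have hμ0 : 0 < μ := by positivity
  have hμ1 : μ ≤ 1 / 16 := by rw [hμ]; nlinarith
  -- the corner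
  set z := p * y with hz
  have hpz : p * z = z := by rw [hz, ← mul_assoc, hpp]
  have hzs : star z = y * p := by rw [hz, star_mul, hps, hys]
  set h := z * star z with hh
  have hh0 : 0 ≤ h := mul_star_self_nonneg z
  have hph : p * h = h := by rw [hh, ← mul_assoc, hpz]
  have hhp : h * p = h := by
    have := congrArg star hph
    rwa [star_mul, hps, hh, star_mul, star_star] at this
  have hzz : ‖z‖ ≤ M := (norm_mul_le _ _).trans (mul_le_of_le_one_left hM0 hp1)
  obtain ⟨G, v1, v2, t, h11, h22, h12, hv1n, hv2n, hpv1, hpv2, hgv, htn, hGh⟩ :=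
    exists_top_copies hC hh0 hph hθ0 hμ0 hμ1
  obtain ⟨a, ha0, ha_norm, hap, hpa, hav, hfa⟩ :=
    exists_side_projection hps hpp hp1 hτ0 hτ1 hμ h11 h22 h12 hv1n hv2n hpv1 hpv2
  obtain ⟨b, w, u, hb0, hb_norm, hby, hwn, hun, hpw, hpu, ⟨m, hm, hbm⟩, hfb⟩ :=
    exists_side_arbitrary hy rfl hzs hph hgv hθ0 hμ1 hε'0 (min_le_right _ _) h11 hGh
  have hax : InHer x a := by
    intro δ hδ
    have hK : (0 : ℝ) < 2 * ‖a‖ + 1 := by positivity
    obtain ⟨k, hk⟩ := hpx (min 1 (δ / (3 * (2 * ‖a‖ + 1)))) (lt_min one_pos (by positivity))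
    set q := x * k * x with hq
    refine ⟨k * x * a * x * k, ?_⟩
    have e : a - x * (k * x * a * x * k) * x = (p - q) * a * p + q * a * (p - q) := by
      have : x * (k * x * a * x * k) * x = q * a * q := by rw [hq]; simp only [mul_assoc]
      rw [this]
      simp only [sub_mul, mul_sub, mul_assoc, hap, hpa]
      abel
    have hkd : ‖p - q‖ < δ / (3 * (2 * ‖a‖ + 1)) := hk.trans_le (min_le_right _ _)
    have hqn : ‖q‖ ≤ 2 := by
      have := norm_le_norm_add_norm_sub' q p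
      have h2 := hk.trans_le (min_le_left _ _)
      rw [norm_sub_rev] at h2
      linarith
    rw [e]
    calc ‖(p - q) * a * p + q * a * (p - q)‖ ≤ ‖p - q‖ * ‖a‖ * 1 + 2 * ‖a‖ * ‖p - q‖ :=
          (norm_add_le _ _).trans (add_le_add
            (norm_mul₃_le.trans (mul_le_mul_of_nonneg_left hp1 (by positivity)))
            (norm_mul₃_le.trans (mul_le_mul_of_nonneg_right
              (mul_le_mul_of_nonneg_right hqn (norm_nonneg _)) (norm_nonneg _))))
      _ ≤ 3 * (2 * ‖a‖ + 1) * ‖p - q‖ := by nlinarith [norm_nonneg (p - q), norm_nonneg a]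
      _ < δ := by rw [lt_div_iff₀ (by positivity)] at hkd; linarith
  have haw : ‖a * w‖ ≤ √(3 * θ) := by
    rw [← hap, mul_assoc]
    exact (norm_mul_le _ _).trans ((mul_le_of_le_one_left (norm_nonneg _) ha_norm).trans hpw)
  have hau : ‖a * u‖ ≤ √(2 * τ) / 2 := by rw [← hap, mul_assoc, hpu]; exact hav
  have hun' : ‖u‖ ≤ M * (M * (2 / θ * 2)) :=
    hun.trans (mul_le_mul_of_nonneg_left (mul_le_mul hzz (htn.trans (le_of_eq (by ring)))
      (norm_nonneg _) hM0) hM0)
  have hab : ‖a * b‖ ≤ η := by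
    rw [hbm, ← mul_assoc]
    refine (norm_mul_le _ _).trans ((mul_le_of_le_one_right (norm_nonneg _) hm).trans ?_)
    rw [mul_add, ← mul_assoc, ← mul_assoc]
    refine (norm_add_le _ _).trans ((add_le_add (norm_mul_le _ _) (norm_mul_le _ _)).trans ?_)
    rw [norm_star, norm_star]
    have h1 : √(3 * θ) ≤ η / (4 * (M + 1)) := by
      rw [Real.sqrt_le_left (by positivity)]
      linarith [min_le_right 1 ((η / (4 * (M + 1))) ^ 2 / 3)]
    have h2 : √(2 * τ) ≤ η * θ / (4 * (M + 1) ^ 2) := by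
      rw [Real.sqrt_le_left (by positivity)]
      linarith [min_le_right 1 ((η * θ / (4 * (M + 1) ^ 2)) ^ 2 / 2)]
    have h3 : η / (4 * (M + 1)) * (2 * M) ≤ η / 2 := by
      rw [div_mul_eq_mul_div, div_le_iff₀ (by positivity)]; nlinarith
    have h4 : η * θ / (4 * (M + 1) ^ 2) / 2 * (M * (M * (2 / θ * 2))) ≤ η / 2 := by
      field_simp
      nlinarith
    have h5 := mul_le_mul (haw.trans h1) hwn (norm_nonneg _) (by positivity)
    have h6 := mul_le_mul (hau.trans (div_le_div_of_nonneg_right h2 zero_le_two)) hun'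
      (norm_nonneg _) (by positivity)
    linarith
  refine ⟨a, b, ha0, hb0, ha_norm, hb_norm, hax, hby, hab, hfa _ ?_ ?_, hfb _ ?_ ?_ ε ?_⟩
  · exact isStarIdeal_idealGen (IsSelfAdjoint.of_nonneg (cut_nonneg c a)).star_eq
  · exact (qn_cut_self ha0 hc0.le).trans (min_le_left _ _)
  · exact isStarIdeal_idealGen (IsSelfAdjoint.of_nonneg (cut_nonneg c b)).star_eq
  · exact (qn_cut_self hb0 hc0.le).trans_lt (by linarith [min_le_right (1 / 64) (sat ε' / 2)])
  · linarith [min_le_left (ε / 2) (1 / 4)]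

end Vale.Agent.P133
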